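import Vale.Agent.P287T.Au.Defs
import Mathlib.LinearAlgebra.Trace
import Mathlib.RingTheory.IntegralClosure.IntegrallyClosed

/-!
# Leaves between the blocks ET, STRICT, FM
-/

set_option linter.unusedVariables false

open MvPolynomial Module

noncomputable section

namespace Vale.Agent.P287T.Au

open Vale.Agent.P287T.Cy Vale.Agent.P287Z.O

/-- The Kodaira-Spencer map of a chart: a tangent vector `δ` at the point `φ` which deforms the
factorization trivially lies over the radial direction of the cone. -/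
def Cht.KS {W : S6} {C : Cf W} (T : Cht C) : Prop :=
  ∀ (φ : T.D →ₐ[ℂ] ℂ) (δ : T.D →ₗ[ℂ] ℂ), (∀ a b, δ (a * b) = φ a * δ b + φ b * δ a) →
    ∀ ξ : Matrix C.ι C.ι S6, (∀ i l m, coeff m (ξ i l) = δ (coeff m (T.d i l))) →
      Trv C.p (val φ T.d) ξ → ∃ c : ℂ, ∀ i, δ (algebraMap C.B T.D (C.y i)) = c * T.π φ i

/-- **KS**: every chart has this property. -/
def StKs : Prop := ∀ (W : S6) (C : Cf W) (T : Cht C), T.KS

/-- the Euler form (`Rr.chi`) -/
def eul {ι κ : Type} [Fintype ι] [Fintype κ] (p : ι → ℤ) (d : Matrix ι ι S6) (q : κ → ℤ)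
    (e : Matrix κ κ S6) : ℤ :=
  ∑ᶠ k : ℤ, (k.negOnePow : ℤ) * finrank ℂ (HH p d q e (3 * k))

/-- the charge (`Rr.zE`) -/
def chg {ι : Type} [Fintype ι] (p : ι → ℤ) : ℂ :=
  ∑ i, (⟨1 / 2, -(√3 / 2)⟩ : ℂ) ^ p i

/-- **NAT**: a natural transformation from the identity to the shift vanishes on the twists of the
stabilised residue field, and these detect every object of nonzero charge. -/
def StNat : Prop := ∀ W : S6, V.Hg 6 W → Sm W →
  ∀ α : ∀ n : ℕ, V.GMF W n → Matrix (Fin n) (Fin n) S6,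
    (∀ n X, α n X ∈ ZZ X.p X.d X.p (-X.d) 3) →
    (∀ m n (X : V.GMF W m) (Y : V.GMF W n), ∀ f ∈ ZZ X.p X.d Y.p Y.d 0,
      f * α m X - α n Y * f ∈ BB X.p X.d Y.p (-Y.d) 3) →
    ∀ (n : ℕ) (Y : V.GMF W n), chg Y.p ≠ 0 → ∃ (m : ℕ) (X : V.GMF W m),
      α m X ∈ BB X.p X.d X.p (-X.d) 3 ∧ eul Y.p Y.d X.p X.d ≠ 0 ∧ eul X.p X.d Y.p Y.d ≠ 0

/-- **TR**: the trace of an endomorphism which preserves a lattice over a normal ring. -/
def StTr : Prop := ∀ (K : Type) [Field K] (A : Subring K) [IsFractionRing A K]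
  [IsIntegrallyClosed A] (M : Type) [AddCommGroup M] [Module K M] [Module.Finite K M]
  (G : Submodule A M), G.FG → Submodule.span K (G : Set M) = ⊤ → ∀ σ : M →ₗ[K] M,
    (∀ x ∈ G, σ x ∈ G) → LinearMap.trace K M σ ∈ A

end Vale.Agent.P287T.Au
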