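import Vale.Agent.P287T.Au.Tp
import Vale.Agent.P287T.Kr.Dual
import Vale.Agent.P287T.Gv.Main
import Vale.Agent.P287T.Fm.O0
import Vale.Agent.P287Z.S2B

/-!
# The algebraic side: from a surface of matrix factorizations to the kernel and the K3 surface
-/

set_option linter.unusedVariables false

open CategoryTheory MvPolynomial Matrix

universe w w'

noncomputable section

namespace Vale.Agent.P287T.Au

open Vale.Agent.P287Z Vale.Agent.P287Z.O Vale.Agent.P287T.Cy Vale.Agent.P287T.Sx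
  Vale.Agent.P287T.Kx

/-- the strict model of the family -/
def HasOut {W : S6} (C : Cf W) : Prop :=
  ∃ (T : Cht C) (Γ : Gr C.B T.D), Gv.Onto T ∧ IsGr T Γ ∧ Nonempty (Out Γ W C.p T.d)

/-- **KER** -/
def StKer : Prop := ∀ (W : S6) [Fact (W.IsHomogeneous 3)], W ≠ 0 → ∀ C : Cf W, HasOut C →
  ∃ (K : Fm.Ker W C.I) (U : (Fin C.ν → ℂ) → V.GMF W (Fintype.card C.ι)),
    K.Pts (fun _ => Fintype.card C.ι) U ∧
      ∀ v ∈ C.Z, ∃ d ∈ C.O v, ∃ h : IsMF W C.p d, U v = Fm.dual (Kr.gm h)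

/-- **SURF** -/
def StSurf : Prop := ∀ (W : S6) (C : Cf W), Fm.Surf C.I ∧ ∀ v, Fm.Pt C.I v ↔ v ∈ C.Z

/-- **CY** -/
def StCy : Prop := ∀ W : S6, W.IsHomogeneous 3 → Sm W → Fm.CY W

/-- **FM** -/
def StMain : Prop := ∀ (W : S6) [Fact (W.IsHomogeneous 3)] (ν : ℕ) (I : Ideal (Gr.Sn ν))
  [Fact (IsHom I)] [HasDerivedCategory.{w} (P294Z.Coh (PI I))], Fm.Main W I

/-- **SPAN** -/
def StSp : Prop := ∀ (W : S6) [Fact (W.IsHomogeneous 3)] (ν : ℕ) (I : Ideal (Gr.Sn ν))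
  [Fact (IsHom I)] [HasDerivedCategory.{w} (P294Z.Coh (PI I))], Fm.StSpan W I

/-- **OUT3** -/
def StO3 : Prop := ∀ (W : S6) [Fact (W.IsHomogeneous 3)] (ν : ℕ) (I : Ideal (Gr.Sn ν))
  [Fact (IsHom I)] [HasDerivedCategory.{w} (P294Z.Coh (PI I))], Fm.StOut3 W I

/-- **H1** -/
def StH1 : Prop := ∀ (W : S6) [Fact (W.IsHomogeneous 3)] (ν : ℕ) (I : Ideal (Gr.Sn ν))
  [Fact (IsHom I)] [HasDerivedCategory.{w} (P294Z.Coh (PI I))], Sm W → Fm.Surf I →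
  ∀ (K : Fm.Ker W I) (r : (Fin ν → ℂ) → ℕ) (U : ∀ v, V.GMF W (r v)), K.Out →
  (∀ v (hv : Fm.Pt I v),
    Nonempty (K.ob (U v) ≅ (DerivedCategory.singleFunctor _ 2).obj (Fm.Ov I hv))) →
  (∀ v, Fm.Pt I v → chg (U v).p ≠ 0) → H1p I

/-- **DGK, ZIG** -/
def StDgk : Prop := ∀ (W : S6) [Fact (W.IsHomogeneous 3)] (ν : ℕ) (I : Ideal (Gr.Sn ν))
  [Fact (IsHom I)] [HasDerivedCategory.{w} (P294Z.Coh (PI I))]
  [HasDerivedCategory.{w'} (P294Z.Coh (PI (Ideal.span {W})))], W ≠ 0 →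
  ∀ K : Fm.Ker W I, K.Out → ∀ L, Stm.Tw (Ideal.span {W}) L →
    Stm.KuEqv (PI I) (PI (Ideal.span {W})) L

variable {W : S6}

/-- the kernel of the family -/
structure Pkg [Fact (W.IsHomogeneous 3)] (C : Cf W) where
  K : Fm.Ker W C.I
  U : (Fin C.ν → ℂ) → V.GMF W (Fintype.card C.ι)
  pts : K.Pts (fun _ => Fintype.card C.ι) U
  rel : ∀ v ∈ C.Z, ∃ d ∈ C.O v, ∃ h : IsMF W C.p d, U v = Kr.gm h

theorem dual_gm {ι : Type} [Fintype ι] [DecidableEq ι] {p : ι → ℤ} {d : Matrix ι ι S6}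
    (h : IsMF W (-p) d) (h' : IsMF W p dᵀ) : Fm.dual (Kr.gm h) = Kr.gm h' := by
  simp only [Fm.dual, Kr.gm, Pi.neg_apply, neg_neg, transpose_submatrix]

theorem chg_gm {ι : Type} [Fintype ι] [DecidableEq ι] {p : ι → ℤ} {d : Matrix ι ι S6}
    (h : IsMF W p d) : chg (Kr.gm h).p = chg p :=
  Equiv.sum_comp (Fintype.equivFin ι).symm fun i => (⟨1 / 2, -(√3 / 2)⟩ : ℂ) ^ p i

theorem sm_ne (hs : Sm W) : W ≠ 0 := fun e =>
  one_ne_zero (congrFun (hs 1 fun j => by rw [e, map_zero, map_zero]) 0)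

variable [hW : Fact (W.IsHomogeneous 3)] {C : Cf W}

theorem exists_pkg (he : StEt) (ho : StStrict) (hk : StKer) (h0 : W ≠ 0) (C : Cf W)
    (ht : Gv.Tst C.tr) : Nonempty (Pkg C) := by
  obtain ⟨K, U, h1, h2⟩ := hk W h0 C.tr (Gv.exists_out hW.out C.tr ht he ho)
  refine ⟨⟨K, U, h1, fun v hv => ?_⟩⟩
  obtain ⟨d, hd, h, e⟩ := h2 v hv
  exact ⟨dᵀ, hd, (C.orb v hv).mf _ hd, e.trans (dual_gm h _)⟩

namespace Pkg

variable (P : Pkg C)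

include P in
theorem h1p (hu : StSurf) (hy : StCy) (hm : StMain.{1}) (hh : StH1.{1}) (hs : Sm W)
    (hc : chg C.p ≠ 0) : H1p C.I := by
  have := HasDerivedCategory.standard (P294Z.Coh (PI C.I))
  obtain ⟨h1, h2⟩ := hm W _ C.I (hy W hW.out hs) (hu W C).1 P.K _ P.U P.pts
  refine hh W _ C.I hs (hu W C).1 P.K _ P.U h1 h2 fun v hv => ?_
  obtain ⟨d, -, h, e⟩ := P.rel v (((hu W C).2 v).1 hv)
  rwa [e, chg_gm]

theorem lbOut (hu : StSurf) (hy : StCy) (hm : StMain.{1}) (hh : StH1.{1}) (h3 : StO3.{1})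
    (hs : Sm W) (hc : chg C.p ≠ 0) : Fm.LbOut C.I (r := fun _ => Fintype.card C.ι) P.U := by
  have := HasDerivedCategory.standard (P294Z.Coh (PI C.I))
  obtain ⟨h1, h2⟩ := hm W _ C.I (hy W hW.out hs) (hu W C).1 P.K _ P.U P.pts
  exact h3 W _ C.I (hy W hW.out hs) (hu W C).1.prime (hu W C).1.ne (P.h1p hu hy hm hh hs hc) P.K _
    P.U h1 h2

theorem span (hu : StSurf) (hy : StCy) (hm : StMain.{1}) (hp : StSp.{1}) (hs : Sm W) {n : ℕ}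
    (E : V.GMF W n) (h : ∀ v ∈ C.Z, ∀ k, Subsingleton (Fm.Hm (P.U v) E k)) : V.Nh E E 1 := by
  have := HasDerivedCategory.standard (P294Z.Coh (PI C.I))
  exact hp W _ C.I (hy W hW.out hs) (hu W C).1 P.K _ P.U P.pts
    (hm W _ C.I (hy W hW.out hs) (hu W C).1 P.K _ P.U P.pts).1 E
    fun v hv => h v (((hu W C).2 v).1 hv)

include P in
theorem kuK3 (hu : StSurf) (hy : StCy) (hm : StMain.{1}) (hm' : StMain.{w}) (hh : StH1.{1})
    (hσ : StSym) (h3 : StK3) (hd : StDgk.{w, w'}) (hs : Sm W) (hc : chg C.p ≠ 0) :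
    Stm.KuK3.{w, w'} W :=
  ⟨C.ν, C.I, inferInstance, h3 W C (hσ W hW.out hs C) (P.h1p hu hy hm hh hs hc),
    ⟨_, S2.tw_Oc _⟩, fun L hL _ _ => hd W _ C.I (sm_ne hs) P.K
      (hm' W _ C.I (hy W hW.out hs) (hu W C).1 P.K _ P.U P.pts).1 L hL⟩

end Pkg

end Vale.Agent.P287T.Au
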