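import Vale.Agent.P287T.Df.Tp
import Vale.Agent.P287Q.Pv.Of
import Vale.Agent.P287Q.Cub.Defs
import Vale.Agent.P287Z.D.Defs
import Mathlib.RingTheory.Smooth.Basic
import Mathlib.RingTheory.Nullstellensatz

/-!
# Surfaces of matrix factorizations: the interfaces between the blocks DEF, PROJ, ET, STRICT, FM
-/

set_option linter.unusedVariables false

open MvPolynomial Module Filter Topology
open scoped Manifold ContDiff

noncomputable section

namespace Vale.Agent.P287T.Au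

open Vale.Agent.P287T.Cy Vale.Agent.P287T.Df Vale.Agent.P287Q Vale.Agent.P287Q.Cub

section

variable {ι : Type} [Fintype ι] [DecidableEq ι]

/-- `O` is the conjugacy class of a matrix factorization with the self-extensions of a point of a
K3 surface. -/
structure Orb (W : S6) (p : ι → ℤ) (O : Set (Matrix ι ι S6)) : Prop where
  ne : O.Nonempty
  mf : ∀ d ∈ O, IsMF W p d
  conj : ∀ d ∈ O, ∀ d', d' ∈ O ↔ ∃ g ∈ MM p p 0, ∃ g' ∈ MM p p 0,
    g * g' = 1 ∧ g' * g = 1 ∧ g * d = d' * g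
  dim : ∀ d ∈ O, ∀ k : ℤ, finrank ℂ (HH p d p d (3 * k)) =
    if k = 0 ∨ k = 2 then 1 else if k = 1 then 2 else 0

/-- There are no maps from the class `O` to shifts of the class `O'`. -/
def Ort (p : ι → ℤ) (O O' : Set (Matrix ι ι S6)) : Prop :=
  ∀ d ∈ O, ∀ d' ∈ O', ∀ k : ℤ, ZZ p d p d' (3 * k) ≤ BB p d p d' (3 * k)

/-- The first order deformation `ξ` of `d` is trivial. -/
def Trv (p : ι → ℤ) (d ξ : Matrix ι ι S6) : Prop := ∃ h ∈ MM p p 0, ξ = h * d - d * h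

end

/-- The output of DEF: a compact connected complex surface whose points are classes of matrix
factorizations of one shape, with local holomorphic families. -/
structure Srf (W : S6) where
  ι : Type
  [fι : Fintype ι]
  [dι : DecidableEq ι]
  p : ι → ℤ
  X : Type
  [top : TopologicalSpace X]
  [t2 : T2Space X]
  [cpt : CompactSpace X]
  [cn : ConnectedSpace X]
  [cs : ChartedSpace (Fin 2 → ℂ) X]
  [mfd : IsManifold 𝓘(ℂ, Fin 2 → ℂ) ω X]
  O : X → Set (Matrix ι ι S6)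
  orb : ∀ x, Orb W p (O x)
  ort : ∀ x x', x ≠ x' → Ort p (O x) (O x')
  loc : ∀ x, ∃ u : (Fin 2 → ℂ) → MM p p 3, AnalyticAt ℂ u (chartAt (Fin 2 → ℂ) x x) ∧
    (∀ᶠ z in 𝓝 (chartAt (Fin 2 → ℂ) x x), (u z).1 ∈ O ((chartAt (Fin 2 → ℂ) x).symm z)) ∧
    ∀ v, Trv p (u (chartAt (Fin 2 → ℂ) x x)).1 (fderiv ℂ u (chartAt (Fin 2 → ℂ) x x) v).1 → v = 0

attribute [instance] Srf.fι Srf.dι Srf.top Srf.t2 Srf.cpt Srf.cn Srf.cs Srf.mfd

/-- The output of PROJ: the same over the punctured cone `Z` over a smooth projective surface. -/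
structure Cf (W : S6) where
  ι : Type
  [fι : Fintype ι]
  [dι : DecidableEq ι]
  p : ι → ℤ
  ν : ℕ
  Z : Set (Fin ν → ℂ)
  pv : PV (π₀ (Fin ν)) Z 2
  cn : IsConnected Z
  O : (Fin ν → ℂ) → Set (Matrix ι ι S6)
  smul : ∀ z ∈ Z, ∀ c : ℂ, c ≠ 0 → O (c • z) = O z
  orb : ∀ z ∈ Z, Orb W p (O z)
  ort : ∀ z ∈ Z, ∀ z' ∈ Z, (∀ c : ℂ, z' ≠ c • z) → Ort p (O z) (O z')
  loc : ∀ z ∈ Z, ∃ u : (Fin ν → ℂ) → MM p p 3, AnalyticAt ℂ u z ∧
    (∀ᶠ y in 𝓝[Z] z, (u y).1 ∈ O y) ∧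
    ∀ v ∈ tn Z z, Trv p (u z).1 (fderiv ℂ u z v).1 → ∃ c : ℂ, v = c • z

attribute [instance] Cf.fι Cf.dι

namespace Cf

variable {W : S6} (C : Cf W)

/-- the ideal of the surface -/
def I : Ideal (MvPolynomial (Fin C.ν) ℂ) := vanishingIdeal ℂ C.Z

theorem mem_I {f : MvPolynomial (Fin C.ν) ℂ} : f ∈ C.I ↔ ∀ z ∈ C.Z, eval z f = 0 := by
  rw [I, mem_vanishingIdeal_iff]
  simp only [aeval_eq_eval]

/-- the homogeneous coordinate ring -/
abbrev B : Type := MvPolynomial (Fin C.ν) ℂ ⧸ C.I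

/-- the coordinates -/
def y (i : Fin C.ν) : C.B := Ideal.Quotient.mk C.I (X i)

end Cf

/-- matrices of degree `j` whose coefficients lie in `D₀` -/
def MD {D : Type} [CommRing D] [Algebra ℂ D] (D₀ : Submodule ℂ D) {ι κ : Type} (p : ι → ℤ)
    (q : κ → ℤ) (j : ℤ) (g : Matrix κ ι (MvPolynomial (Fin 6) D)) : Prop :=
  ∀ i l m, coeff m (g i l) ∈ D₀ ∧ (coeff m (g i l) ≠ 0 → 2 * (m.degree : ℤ) = j + p l - q i)

/-- the value of a matrix at a point -/
def val {D : Type} [CommRing D] [Algebra ℂ D] (φ : D →ₐ[ℂ] ℂ) {ι κ : Type}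
    (g : Matrix κ ι (MvPolynomial (Fin 6) D)) : Matrix κ ι S6 :=
  g.map (MvPolynomial.map (φ : D →+* ℂ))

/-- The output of ET: a graded smooth algebra over the coordinate ring, with a family of matrix
factorizations whose fibres are the given ones. -/
structure Cht {W : S6} (C : Cf W) where
  D : Type
  [cr : CommRing D]
  [ac : Algebra ℂ D]
  [ab : Algebra C.B D]
  [tw : IsScalarTower ℂ C.B D]
  sm : Algebra.Smooth C.B D
  𝒟 : ℤ → Submodule ℂ D
  [gr : GradedAlgebra 𝒟]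
  dy : ∀ i, algebraMap C.B D (C.y i) ∈ 𝒟 1
  d : Matrix C.ι C.ι (MvPolynomial (Fin 6) D)
  dg : MD (𝒟 0) C.p C.p 3 d
  sq : d * d = MvPolynomial.map (algebraMap ℂ D) W • (1 : Matrix C.ι C.ι (MvPolynomial (Fin 6) D))
  pt : ∀ φ : D →ₐ[ℂ] ℂ, (fun i => φ (algebraMap C.B D (C.y i))) ∈ C.Z
  fib : ∀ φ : D →ₐ[ℂ] ℂ, val φ d ∈ C.O fun i => φ (algebraMap C.B D (C.y i))

attribute [instance] Cht.cr Cht.ac Cht.ab Cht.tw Cht.gr

/-- the point of the cone under a point of a chart -/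
def Cht.π {W : S6} {C : Cf W} (T : Cht C) (φ : T.D →ₐ[ℂ] ℂ) : Fin C.ν → ℂ :=
  fun i => φ (algebraMap C.B T.D (C.y i))

/-- properties of raw matrix factorizations -/
abbrev Pr : Type 1 :=
  ∀ (ι : Type) [Fintype ι] [DecidableEq ι], (ι → ℤ) → Matrix ι ι S6 → Prop

/-- all members of the family have the property `Q` -/
def Srf.All {W : S6} (S : Srf W) (Q : Pr) : Prop := ∀ x, ∀ d ∈ S.O x, Q S.ι S.p d

/-- all members of the family have the property `Q` -/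
def Cf.All {W : S6} (C : Cf W) (Q : Pr) : Prop := ∀ z ∈ C.Z, ∀ d ∈ C.O z, Q C.ι C.p d

/-- **PROJ** -/
def StProj : Prop := ∀ (W : S6) (S : Srf W) (Q : Pr), S.All Q → ∃ C : Cf W, C.All Q

/-- **ET** -/
def StEt : Prop := ∀ (W : S6) (C : Cf W), ∀ z ∈ C.Z, ∃ (T : Cht C) (φ : T.D →ₐ[ℂ] ℂ), T.π φ = z

end Vale.Agent.P287T.Au
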