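import Vale.Agent.P287T.Au.St
import Vale.Agent.P287T.Cy.Sy1
import Vale.Agent.P287Q.Pv.Chow1
import Vale.Agent.P287Q.Pv.Prm
import Mathlib.Analysis.Calculus.ImplicitContDiff
import Mathlib.Analysis.Calculus.Deriv.Polynomial
import Mathlib.RingTheory.Unramified.LocalStructure
import Mathlib.Algebra.TrivSqZeroExt.Ideal
import Mathlib.Algebra.DualNumber

/-!
# The Kodaira-Spencer map of a chart

A tangent vector at a point of a smooth algebra is the velocity of an arc of points; along the arc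
the two families of matrix factorizations are conjugate.
-/

open Filter Topology Module

noncomputable section

namespace Vale.Agent.P287T.Au

section arc

variable {R T : Type*} [CommRing R] [CommRing T] {f g : ℂ → ℂ} {x y : DualNumber ℂ}

/-- `x` is the first jet of `f` at `0`. -/
def Jt (f : ℂ → ℂ) (x : DualNumber ℂ) : Prop :=
  ContDiffAt ℂ 1 f 0 ∧ f 0 = x.fst ∧ HasDerivAt f x.snd 0

theorem Jt.add (h : Jt f x) (k : Jt g y) : Jt (fun t => f t + g t) (x + y) :=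
  ⟨h.1.add k.1, congrArg₂ (· + ·) h.2.1 k.2.1, h.2.2.add k.2.2⟩

theorem Jt.mul (h : Jt f x) (k : Jt g y) : Jt (fun t => f t * g t) (x * y) :=
  ⟨h.1.mul k.1, congrArg₂ (· * ·) h.2.1 k.2.1, (h.2.2.mul k.2.2).congr_deriv (by
    rw [DualNumber.snd_mul, h.2.1, k.2.1, add_comm])⟩

theorem Jt.congr (h : Jt f x) (e : g =ᶠ[𝓝 0] f) : Jt g x :=
  ⟨h.1.congr_of_eventuallyEq e, e.self_of_nhds.trans h.2.1, h.2.2.congr_of_eventuallyEq e⟩

theorem Jt.unique (h : Jt f x) (k : Jt f y) : x = y :=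
  TrivSqZeroExt.ext (h.2.1.symm.trans k.2.1) (h.2.2.unique k.2.2)

theorem jt_line (x : DualNumber ℂ) : Jt (fun t => x.fst + t * x.snd) x :=
  ⟨contDiffAt_const.add (contDiffAt_id.mul contDiffAt_const), by simp,
    (hasDerivAt_mul_const x.snd).const_add x.fst⟩

theorem exists_dn (φ : R →+* ℂ) (δ : R → ℂ) (ha : ∀ a b, δ (a + b) = δ a + δ b)
    (hm : ∀ a b, δ (a * b) = φ a * δ b + φ b * δ a) :
    ∃ χ : R →+* DualNumber ℂ, ∀ a, (χ a).fst = φ a ∧ (χ a).snd = δ a := by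
  have h0 : δ 0 = 0 := by simpa using ha 0 0
  have h1 : δ 1 = 0 := by simpa using hm 1 1
  exact ⟨⟨⟨⟨fun a => (φ a, δ a), TrivSqZeroExt.ext φ.map_one h1⟩, fun a b =>
    TrivSqZeroExt.ext (φ.map_mul a b) (by
      rw [DualNumber.snd_mul]
      exact (hm a b).trans (congrArg _ (mul_comm _ _)))⟩, TrivSqZeroExt.ext φ.map_zero h0,
    fun a b => TrivSqZeroExt.ext (φ.map_add a b) (ha a b)⟩, fun _ => ⟨rfl, rfl⟩⟩

theorem exists_jt (ev : ℂ → R →+* ℂ) (h : ∀ r, ContDiffAt ℂ 1 (fun t => ev t r) 0) :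
    ∃ χ : R →+* DualNumber ℂ, ∀ r, Jt (fun t => ev t r) (χ r) := by
  have d := fun r => ((h r).differentiableAt one_ne_zero).hasDerivAt
  obtain ⟨χ, hχ⟩ := exists_dn (ev 0) (fun r => deriv (fun t => ev t r) 0)
    (fun a b => by
      simp only [map_add]
      exact ((d a).fun_add (d b)).deriv)
    (fun a b => by
      simp only [map_mul]
      rw [((d a).fun_mul (d b)).deriv]
      ring)
  exact ⟨χ, fun r => ⟨h r, (hχ r).1.symm, (hχ r).2 ▸ d r⟩⟩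

theorem jt_mv {σ : Type*} (ev : ℂ → R →+* ℂ) (γ : ℂ → σ → ℂ)
    (χ : MvPolynomial σ R →+* DualNumber ℂ)
    (h1 : ∀ r, Jt (fun t => ev t r) (χ (MvPolynomial.C r)))
    (h2 : ∀ i, Jt (fun t => γ t i) (χ (MvPolynomial.X i))) (P : MvPolynomial σ R) :
    Jt (fun t => MvPolynomial.eval₂Hom (ev t) (γ t) P) (χ P) := by
  induction P using MvPolynomial.induction_on with
  | C c => simpa using h1 c
  | add p q hp hq => simpa only [map_add] using hp.add hq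
  | mul_X p k hp => simpa only [map_mul, MvPolynomial.eval₂Hom_X'] using hp.mul (h2 k)

open Polynomial

theorem cd_eval₂ {ev : ℂ → R →+* ℂ} (hs : ∀ r, ContDiffAt ℂ 1 (fun t => ev t r) 0) (P : R[X])
    (z : ℂ) : ContDiffAt ℂ 1 (fun v : ℂ × ℂ => P.eval₂ (ev v.1) v.2) (0, z) := by
  simp only [eval₂_eq_sum_range]
  exact ContDiffAt.sum fun i _ =>
    ((hs _).comp ((0 : ℂ), z) contDiffAt_fst).mul (contDiffAt_snd.pow i)

/-- A simple root moves with the coefficients. -/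
theorem root_arc {ev : ℂ → R →+* ℂ} (hs : ∀ r, ContDiffAt ℂ 1 (fun t => ev t r) 0) (P : R[X])
    {z : ℂ} (h0 : P.eval₂ (ev 0) z = 0) (h1 : P.derivative.eval₂ (ev 0) z ≠ 0) :
    ∃ ψ : ℂ → ℂ, ψ 0 = z ∧ ContDiffAt ℂ 1 ψ 0 ∧ ∀ᶠ t in 𝓝 0, P.eval₂ (ev t) (ψ t) = 0 := by
  have hf := cd_eval₂ hs P z
  have h2 : HasDerivAt (fun w : ℂ => P.eval₂ (ev 0) w) (P.derivative.eval₂ (ev 0) z) z := by
    simpa only [eval_map, derivative_map] using (P.map (ev 0)).hasDerivAt z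
  have h3 : HasFDerivAt (fun w : ℂ => P.eval₂ (ev 0) w)
      (fderiv ℂ (fun v : ℂ × ℂ => P.eval₂ (ev v.1) v.2) (0, z) ∘L .inr ℂ ℂ ℂ) z :=
    HasFDerivAt.comp (g := fun v : ℂ × ℂ => P.eval₂ (ev v.1) v.2) (f := fun w => ((0 : ℂ), w)) z
      (hf.differentiableAt one_ne_zero).hasFDerivAt (hasFDerivAt_prodMk_right 0 z)
  have hi : (fderiv ℂ (fun v : ℂ × ℂ => P.eval₂ (ev v.1) v.2) (0, z) ∘L
      .inr ℂ ℂ ℂ).IsInvertible := ⟨_, (h2.hasFDerivAt_equiv h1).unique h3⟩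
  exact ⟨_, hf.implicitFunction_apply_self one_ne_zero hi,
    hf.contDiffAt_implicitFunction one_ne_zero hi,
    (hf.eventually_apply_implicitFunction one_ne_zero hi).mono fun t a => a.trans h0⟩

variable [Algebra R T]

theorem map_aev {C : Type*} [CommRing C] (χ : T →+* C) {e : R →+* C}
    (h : χ.comp (algebraMap R T) = e) (x : T) (Q : R[X]) : χ (aeval x Q) = Q.eval₂ e (χ x) := by
  rw [aeval_def, hom_eval₂, h]

theorem exists_pt (P : StandardEtalePresentation R T) (e : R →+* ℂ) (z : ℂ)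
    (h0 : P.f.eval₂ e z = 0) (h1 : P.g.eval₂ e z ≠ 0) :
    ∃ χ : T →+* ℂ, χ.comp (algebraMap R T) = e ∧ χ P.x = z := by
  let : Algebra R ℂ := e.toAlgebra
  have h : P.P.HasMap z := ⟨h0, IsUnit.mk0 _ h1⟩
  refine ⟨((P.P.lift z h).comp P.equivRing.toAlgHom).toRingHom, ?_, ?_⟩
  · exact RingHom.ext fun r => ((P.P.lift z h).comp P.equivRing.toAlgHom).commutes r
  · change P.P.lift z h (P.equivRing P.x) = z
    rw [P.equivRing_x, P.P.lift_X]

theorem pt_ext (P : StandardEtalePresentation R T) {χ χ' : T →+* ℂ}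
    (h : χ.comp (algebraMap R T) = χ'.comp (algebraMap R T)) (hx : χ P.x = χ' P.x) : χ = χ' := by
  let : Algebra R ℂ := (χ.comp (algebraMap R T)).toAlgebra
  have := P.hom_ext (f₁ := ⟨χ, fun _ => rfl⟩) (f₂ := ⟨χ', fun r => (RingHom.congr_fun h r).symm⟩) hx
  exact RingHom.ext fun t => AlgHom.congr_fun this t

theorem dn_ext [Algebra.FormallyUnramified R T] {χ χ' : T →+* DualNumber ℂ}
    (h : ∀ r, χ' (algebraMap R T r) = χ (algebraMap R T r)) (hx : ∀ a, (χ a).fst = (χ' a).fst) :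
    χ = χ' := by
  let : Algebra R (DualNumber ℂ) := (χ.comp (algebraMap R T)).toAlgebra
  have := Algebra.FormallyUnramified.ext' (TrivSqZeroExt.fstHom ℂ ℂ ℂ).toRingHom
    ⟨2, TrivSqZeroExt.kerIdeal_sq ℂ ℂ⟩ (⟨χ, fun _ => rfl⟩ : T →ₐ[R] DualNumber ℂ) ⟨χ', h⟩ hx
  exact RingHom.ext fun t => AlgHom.congr_fun this t

/-- Arcs lift to standard etale algebras. -/
theorem std_arc [Algebra.IsStandardEtale R T] (ev : ℂ → R →+* ℂ) (χ : T →+* DualNumber ℂ)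
    (h : ∀ r, Jt (fun t => ev t r) (χ (algebraMap R T r))) :
    ∃ ev' : ℂ → T →+* ℂ, (∀ᶠ t in 𝓝 0, (ev' t).comp (algebraMap R T) = ev t) ∧
      ∀ a, Jt (fun t => ev' t a) (χ a) := by
  obtain ⟨P⟩ := Algebra.IsStandardEtale.nonempty_standardEtalePresentation (R := R) (S := T)
  let φ : T →+* ℂ := (TrivSqZeroExt.fstHom ℂ ℂ ℂ).toRingHom.comp χ
  have hφ : φ.comp (algebraMap R T) = ev 0 := RingHom.ext fun r => (h r).2.1.symm
  have hs := fun r => (h r).1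
  obtain ⟨ψ, hψ, hc, h0⟩ := root_arc hs P.f (z := φ P.x)
    (by rw [← map_aev φ hφ, P.hasMap.1, map_zero])
    (by
      rw [← map_aev φ hφ]
      exact (P.hasMap.isUnit_derivative_f.map φ).ne_zero)
  have hA : ∀ Q : R[X], ContDiffAt ℂ 1 (fun t => Q.eval₂ (ev t) (ψ t)) 0 := fun Q =>
    ContDiffAt.comp (g := fun v : ℂ × ℂ => Q.eval₂ (ev v.1) v.2) (f := fun t => (t, ψ t)) 0
      (cd_eval₂ hs Q _) (contDiffAt_id.prodMk hc)
  have h3 := h0.and ((hA P.g).continuousAt.eventually_ne (y := 0) (by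
    rw [hψ, ← map_aev φ hφ]
    exact (P.hasMap.2.map φ).ne_zero))
  have hE : ∀ t, ∃ χ' : T →+* ℂ, P.f.eval₂ (ev t) (ψ t) = 0 ∧ P.g.eval₂ (ev t) (ψ t) ≠ 0 →
      χ'.comp (algebraMap R T) = ev t ∧ χ' P.x = ψ t := fun t => by
    by_cases a : P.f.eval₂ (ev t) (ψ t) = 0 ∧ P.g.eval₂ (ev t) (ψ t) ≠ 0
    · exact (exists_pt P (ev t) (ψ t) a.1 a.2).imp fun _ b _ => b
    · exact ⟨φ, fun b => absurd b a⟩
  choose ev' hev using hE
  have h4 := h3.mono hev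
  have h5 : ev' 0 = φ := pt_ext P (h4.self_of_nhds.1.trans hφ.symm) (h4.self_of_nhds.2.trans hψ)
  obtain ⟨χ', h6⟩ := exists_jt ev' fun a => by
    obtain ⟨p, m, hp⟩ := P.exists_mul_aeval_x_g_pow_eq_aeval_x a
    refine ((hA p).mul (((hA P.g).pow m).inv
      (pow_ne_zero m h3.self_of_nhds.2))).congr_of_eventuallyEq ?_
    filter_upwards [h3, h4] with t b c
    have := congrArg (ev' t) hp
    rw [map_mul, map_pow, map_aev _ c.1, map_aev _ c.1, c.2] at this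
    exact (eq_mul_inv_iff_mul_eq₀ (pow_ne_zero m b.2)).2 this
  have h7 : χ = χ' := dn_ext (R := R)
    (fun r => (h6 _).unique ((h r).congr (h4.mono fun t a => RingHom.congr_fun a.1 r)))
    fun a => (RingHom.congr_fun h5 a).symm.trans (h6 a).2.1
  exact ⟨ev', h4.mono fun _ a => a.1, h7 ▸ h6⟩

/-- **Arcs lift to smooth algebras**, with any given first jet. -/
theorem smooth_arc [Algebra.Smooth R T] (ev : ℂ → R →+* ℂ) (χ : T →+* DualNumber ℂ)
    (h : ∀ r, Jt (fun t => ev t r) (χ (algebraMap R T r))) :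
    ∃ ev' : ℂ → T →+* ℂ, (∀ᶠ t in 𝓝 0, (ev' t).comp (algebraMap R T) = ev t) ∧
      ∀ a, Jt (fun t => ev' t a) (χ a) := by
  let φ : T →+* ℂ := (TrivSqZeroExt.fstHom ℂ ℂ ℂ).toRingHom.comp χ
  have : (RingHom.ker φ).IsPrime := RingHom.ker_isPrime φ
  obtain ⟨s, hs, n, _, _, _⟩ :=
    Algebra.IsSmoothAt.exists_isStandardEtale_mvPolynomial (R := R) (p := RingHom.ker φ)
  have hu : IsUnit (χ s) := TrivSqZeroExt.isUnit_iff_isUnit_fst.2 (IsUnit.mk0 _ hs)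
  let χ₁ := IsLocalization.Away.lift (S := Localization.Away s) s hu
  have e1 : ∀ a, χ₁ (algebraMap T _ a) = χ a := IsLocalization.Away.lift_eq s hu
  have e2 : ∀ r, algebraMap (MvPolynomial (Fin n) R) (Localization.Away s) (MvPolynomial.C r) =
      algebraMap T _ (algebraMap R T r) := fun r =>
    (IsScalarTower.algebraMap_apply R _ _ r).symm.trans (IsScalarTower.algebraMap_apply R T _ r)
  let χ₂ := χ₁.comp (algebraMap (MvPolynomial (Fin n) R) _)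
  obtain ⟨ev', a, b⟩ := std_arc (fun t => MvPolynomial.eval₂Hom (ev t) fun i =>
      (χ₂ (MvPolynomial.X i)).fst + t * (χ₂ (MvPolynomial.X i)).snd) χ₁
    (jt_mv ev _ χ₂ (fun r => ((congrArg χ₁ (e2 r)).trans (e1 _)).symm ▸ h r) fun _ => jt_line _)
  refine ⟨fun t => (ev' t).comp (algebraMap T _), a.mono fun t c => RingHom.ext fun r => ?_,
    fun r => e1 r ▸ b _⟩
  exact (congrArg (ev' t) (e2 r).symm).trans
    ((RingHom.congr_fun c _).trans (MvPolynomial.eval₂Hom_C _ _ r))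

end arc

open MvPolynomial Vale.Agent.P287T.Cy Vale.Agent.P287T.Df Vale.Agent.P287Q Vale.Agent.P287Z.O.L

section

variable {ι : Type} [Fintype ι] [DecidableEq ι] {W : S6} {p : ι → ℤ}

theorem Orb.hh {O : Set (Matrix ι ι S6)} (h : Orb W p O) {d d' : Matrix ι ι S6} (a : d ∈ O)
    (b : d' ∈ O) : finrank ℂ (HH p d p d' 0) = 1 := by
  obtain ⟨g, hg, g', hg', k1, k2, k3⟩ := (h.conj d a d').1 b
  rw [← (HE.of_conj hg hg' k1 k2 k3).hh_right]
  exact h.dim d a 0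

/-- For two pointwise conjugate families the same tangent vectors are trivial. -/
theorem trv_arc {E : Type*} [NormedAddCommGroup E] [NormedSpace ℂ E] {u u' : E → MM p p 3}
    {t0 : E} {L L' : E →L[ℂ] MM p p 3} (hu : HasFDerivAt u L t0) (hu' : HasFDerivAt u' L' t0)
    (h : ∀ᶠ t in 𝓝 t0, ∃ O, Orb W p O ∧ (u t).1 ∈ O ∧ (u' t).1 ∈ O) {v : E}
    (hv : Trv p (u t0).1 (L v).1) : Trv p (u' t0).1 (L' v).1 := by
  obtain ⟨O, hO, a, b⟩ := h.self_of_nhds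
  obtain ⟨g, hg, g', hg', k1, k2, k3⟩ := (hO.conj _ a _).1 b
  obtain ⟨k, hk, e⟩ := deriv_ext hu hu' (j := 0) (h.mono fun t ⟨O', hO', a', b'⟩ =>
    ⟨⟨W, hO'.mf _ a', hO'.mf _ b'⟩, by rw [hO.hh a b, hO'.hh a' b']⟩) (f := g) ⟨hg, k3.symm⟩ v
  obtain ⟨l, hl, e1⟩ := hv
  refine ⟨(g * l - k) * g', MM_mul (q := p) (a := 0) (b := 0) (Submodule.sub_mem _
    (MM_mul (q := p) hg hl rfl) hk) hg' rfl, ?_⟩
  have k4 : (u t0).1 * g' = g' * (u' t0).1 := by
    rw [← one_mul ((u t0).1 * g'), ← k2, mul_assoc, ← mul_assoc g, k3, mul_assoc, k1, mul_one]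
  rw [← mul_one (L' v).1, ← k1, ← mul_assoc, sub_eq_iff_eq_add.1 e, e1, mul_assoc _ g', ← k4,
    mul_sub g, ← mul_assoc g (u t0).1, k3]
  noncomm_ring

end

/-- A tangent vector of a chart is the velocity of an arc. -/
theorem Cht.arc {W : S6} {C : Cf W} (T : Cht C) (φ : T.D →ₐ[ℂ] ℂ) (δ : T.D →ₗ[ℂ] ℂ)
    (hδ : ∀ a b, δ (a * b) = φ a * δ b + φ b * δ a) {v : Fin C.ν → ℂ}
    (hv : ∀ i, δ (algebraMap C.B T.D (C.y i)) = v i) : v ∈ tn C.Z (T.π φ) ∧
    ∃ (γ : ℂ → Fin C.ν → ℂ) (Γ : ℂ → T.D →+* ℂ), γ 0 = T.π φ ∧ HasDerivAt γ v 0 ∧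
      (∀ᶠ t in 𝓝 0, ∃ ρ : T.D →ₐ[ℂ] ℂ, T.π ρ = γ t ∧ Γ t = ρ) ∧
      ∀ a, Γ 0 a = φ a ∧ HasDerivAt (fun t => Γ t a) (δ a) 0 := by
  obtain ⟨χ, hχ⟩ := exists_dn (φ : T.D →+* ℂ) δ δ.map_add hδ
  have hz : T.π φ ∈ C.Z := T.pt φ
  have e1 : ∀ c, algebraMap C.B T.D (Ideal.Quotient.mk C.I (MvPolynomial.C c)) = c • 1 := fun c =>
    (IsScalarTower.algebraMap_apply ℂ C.B T.D c).symm.trans (Algebra.algebraMap_eq_smul_one c)
  have h1 : δ 1 = 0 := by simpa using hδ 1 1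
  have key : ∀ γ : ℂ → Fin C.ν → ℂ, ContDiffAt ℂ 1 γ 0 → γ 0 = T.π φ → HasDerivAt γ v 0 → ∀ P,
      Jt (fun t => eval (γ t) P) (χ (algebraMap C.B T.D (Ideal.Quotient.mk C.I P))) :=
    fun γ a b c => jt_mv (fun _ => RingHom.id ℂ) γ
      (χ.comp ((algebraMap C.B T.D).comp (Ideal.Quotient.mk C.I)))
      (fun r => ⟨contDiffAt_const, ((hχ _).1.trans ((congrArg φ (e1 r)).trans (by simp))).symm,
        (hasDerivAt_const 0 r).congr_deriv
          ((hχ _).2.trans ((congrArg δ (e1 r)).trans (by simp [h1]))).symm⟩)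
      fun i => ⟨contDiffAt_pi.1 a i, (congrFun b i).trans (hχ _).1.symm,
        (hasDerivAt_pi.1 c i).congr_deriv ((hχ _).2.trans (hv i)).symm⟩
  have h2 : v ∈ tn C.Z (T.π φ) := Chow1.jac C.pv hz fun P hP => by
    have a := (key (fun t => T.π φ + t • v) (by fun_prop) (by simp) (by
      simpa using ((hasDerivAt_id (0 : ℂ)).smul_const v).const_add (T.π φ)) P).2.2
    rw [Ideal.Quotient.eq_zero_iff_mem.2 (C.mem_I.2 hP), map_zero, map_zero] at a
    exact ((AnalyticOnNhd.eval_mvPolynomial P (T.π φ) trivial).differentiableAt.hasFDerivAt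
      |>.hasLineDerivAt v).unique a
  obtain ⟨ψ, hψ, e0⟩ := (C.pv.mfd _ hz).prm
  obtain ⟨w, hw⟩ := hψ.mem_tn.1 (e0 ▸ h2)
  have w0 : 0 + (0 : ℂ) • w = 0 := (zero_add _).trans (zero_smul ℂ w)
  have w1 : ContDiffAt ℂ 1 (fun t : ℂ => 0 + t • w) 0 := by fun_prop
  let γ : ℂ → Fin C.ν → ℂ := fun t => ψ (0 + t • w)
  have g0 : γ 0 = T.π φ := (congrArg ψ w0).trans e0
  have g1 : ContDiffAt ℂ 1 γ 0 := ContDiffAt.comp (g := ψ) 0 (w0.symm ▸ hψ.an.contDiffAt) w1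
  have g2 : HasDerivAt γ v 0 := hw ▸ hψ.an.differentiableAt.hasFDerivAt.hasLineDerivAt w
  have g3 : ∀ᶠ t in 𝓝 0, γ t ∈ C.Z :=
    (w1.continuousAt.tendsto.mono_right (congrArg 𝓝 w0).le).eventually hψ.mem
  have hE : ∀ t, ∃ e : C.B →+* ℂ, γ t ∈ C.Z → ∀ P, e (Ideal.Quotient.mk C.I P) = eval (γ t) P :=
    fun t => by
    by_cases a : γ t ∈ C.Z
    · exact ⟨Ideal.Quotient.lift C.I (eval (γ t)) fun P b => C.mem_I.1 b _ a, fun _ _ => rfl⟩
    · exact ⟨(φ : T.D →+* ℂ).comp (algebraMap _ _), fun b => absurd b a⟩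
  choose ev hev using hE
  have := T.sm
  obtain ⟨Γ, G1, G2⟩ := smooth_arc ev χ fun r => by
    obtain ⟨P, rfl⟩ := Ideal.Quotient.mk_surjective r
    exact (key γ g1 g0 g2 P).congr (g3.mono fun t a => hev t a P)
  refine ⟨h2, γ, Γ, g0, g2, ?_, fun a => ⟨(G2 a).2.1.trans (hχ a).1, (hχ a).2 ▸ (G2 a).2.2⟩⟩
  filter_upwards [g3, G1] with t a b
  have e : ∀ P, Γ t (algebraMap C.B T.D (Ideal.Quotient.mk C.I P)) = eval (γ t) P := fun P =>
    (RingHom.congr_fun b _).trans (hev t a P)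
  refine ⟨⟨Γ t, fun r => ?_⟩, funext fun i => ?_, ?_⟩
  · exact (congrArg (Γ t) (IsScalarTower.algebraMap_apply ℂ C.B T.D r)).trans
      ((e (MvPolynomial.C r)).trans (eval_C r))
  · exact (e (X i)).trans (eval_X i)
  · rfl

/-- **KS** -/
theorem stKs : StKs := fun W C T φ δ hδ ξ hξ htr => by
  obtain ⟨hv, γ, Γ, g0, g2, G1, G2⟩ := T.arc φ δ hδ fun _ => rfl
  obtain ⟨u, u1, u2, u3⟩ := C.loc _ (T.pt φ)
  let d : ℂ → MM C.p C.p 3 := fun t => ⟨T.d.map (MvPolynomial.map (Γ t)), fun i l =>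
    hg_iff.2 fun m hm => (T.dg i l m).2 fun e => mem_support_iff.1 hm (by
      rw [Matrix.map_apply, coeff_map, e, map_zero])⟩
  have d1 : ∀ t i l m, coeff m ((d t).1 i l) = Γ t (coeff m (T.d i l)) := fun t i l m =>
    coeff_map _ _ _
  have d2 : DifferentiableAt ℂ d 0 := differentiableWithinAt_univ.1
    (differentiableWithinAt_MM.2 fun i l m => by
      simp only [d1]
      exact (G2 _).2.differentiableAt.differentiableWithinAt)
  have d3 : (d 0).1 = val φ T.d := Matrix.ext fun i l => MvPolynomial.ext _ _ fun m =>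
    (d1 0 i l m).trans ((G2 _).1.trans (coeff_map (φ : T.D →+* ℂ) _ _).symm)
  have d4 : (fderiv ℂ d 0 1).1 = ξ := Matrix.ext fun i l => MvPolynomial.ext _ _ fun m =>
    (((cfM C.p C.p 3 (i, l, m)).toContinuousLinearMap.hasFDerivAt.comp 0
      d2.hasFDerivAt).hasDerivAt.unique ((G2 (coeff m (T.d i l))).2.congr_of_eventuallyEq
      (.of_forall fun t => d1 t i l m))).trans (hξ i l m).symm
  have g3 : ∀ᶠ t in 𝓝 0, γ t ∈ C.Z := G1.mono fun t ⟨ρ, a, _⟩ => a ▸ T.pt ρ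
  have g4 : Tendsto γ (𝓝 0) (𝓝[C.Z] T.π φ) :=
    tendsto_nhdsWithin_iff.2 ⟨g0 ▸ g2.continuousAt.tendsto, g3⟩
  have u4 := HasFDerivAt.comp_hasDerivAt_of_eq 0 u1.differentiableAt.hasFDerivAt g2 g0.symm
  have h5 := trv_arc (W := W) d2.hasFDerivAt u4.hasFDerivAt (v := 1) (by
    filter_upwards [g3, G1, g4.eventually u2] with t a ⟨ρ, b, e⟩ c
    refine ⟨_, C.orb _ a, ?_, c⟩
    rw [← b, show (d t).1 = val ρ T.d from congrArg (fun f => T.d.map (MvPolynomial.map f)) e]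
    exact T.fib ρ) (by rw [d3, d4]; exact htr)
  rw [ContinuousLinearMap.toSpanSingleton_apply, one_smul, Function.comp_apply, g0] at h5
  exact (u3 _ hv h5).imp fun c hc i => congrFun hc i

end Vale.Agent.P287T.Au
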