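import Vale.Agent.P287T.Au.Nat2

/-!
# Natural transformations from the identity to the shift (P287 phase 2, leaf NAT)
-/

set_option linter.unusedSectionVars false

open MvPolynomial Matrix Module

noncomputable section

namespace Vale.Agent.P287T.Au

open Vale.Agent.P287T.Cy Vale.Agent.P287Z.O Vale.Agent.P287Z.O.L Vale.Agent.P287Z.T

variable {ι κ : Type} [Fintype ι] [DecidableEq ι] [Fintype κ] [DecidableEq κ] {W : S6}

theorem pd_swap (f : S6) (a b : Fin 6) : pderiv a (pderiv b f) = pderiv b (pderiv a f) := by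
  induction f using MvPolynomial.induction_on with
  | C c => simp
  | add p q h1 h2 => simp [h1, h2]
  | mul_X p i h =>
    have k (a b : Fin 6) : pderiv a (pderiv b (X i : S6)) = 0 := by
      rw [pderiv_X, Pi.single_apply]
      split_ifs <;> simp
    simp only [Derivation.leibniz, smul_eq_mul, map_add, h, k]
    ring

theorem sqf (hs : Sm W) : Squarefree W := by
  have k : ∀ p : S6, Prime p → ¬∀ j, p ∣ pderiv j W := fun p hp hj => by
    have d : ∀ i, p ∣ X i := fun i => by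
      obtain ⟨N, hN⟩ := exists_pow_mem hs i
      exact hp.dvd_of_dvd_pow (Ideal.mem_span_singleton.1 (Ideal.span_le.2 (Set.range_subset_iff.2
        fun j => Ideal.mem_span_singleton.2 (hj j)) hN))
    have := map_dvd (eval (Pi.single 1 1))
      ((hp.irreducible.associated_of_dvd X_prime.irreducible (d 0)).dvd'.trans (d 1))
    simp at this
  have h0 : W ≠ 0 := fun e => k (X 0) X_prime fun j => by simp [e]
  refine (squarefree_iff_irreducible_sq_not_dvd_of_ne_zero h0).2 fun p hp ⟨q, e⟩ =>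
    k p hp.prime fun j => ?_
  rw [e, mul_assoc, Derivation.leibniz, Derivation.leibniz]
  exact ⟨pderiv j (p * q) + q * pderiv j p, by simp only [Derivation.leibniz, smul_eq_mul]; ring⟩

theorem dvd_of_van (hs : Sm W) {f : S6} (h : ∀ a, eval a W = 0 → eval a f = 0) : W ∣ f := by
  have : f ∈ (Ideal.span {W}).radical := by
    rw [← vanishingIdeal_zeroLocus_eq_radical (K := ℂ), zeroLocus_span]
    exact fun x hx => h x (hx W rfl)
  obtain ⟨N, hN⟩ := this
  exact (sqf hs).isRadical N _ (Ideal.mem_span_singleton.1 hN)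

/-- the gradient -/
def grd (f : S6) : Fin 6 → S6 := fun i => pderiv i f

/-- a constant vector -/
def cv (a : Fin 6 → ℂ) : Fin 6 → S6 := fun i => C (a i)

/-- the directional derivative -/
def dl (a : Fin 6 → ℂ) (f : S6) : S6 := grd f ⬝ᵥ cv a

/-- evaluation, as an endomorphism of the polynomial ring -/
def evS (a : Fin 6 → ℂ) : S6 →ₐ[ℂ] S6 := (Algebra.ofId ℂ S6).comp (aeval a)

theorem evS_apply (a : Fin 6 → ℂ) (f : S6) : evS a f = C (eval a f) := rfl

theorem hg_C (z : ℂ) : V.Hg 0 (C z : S6) := isWeightedHomogeneous_C _ _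

theorem grd_hg {n : ℤ} {f : S6} (h : V.Hg n f) (i : Fin 6) : V.Hg (n - 2) (grd f i) :=
  IsWeightedHomogeneous.pderiv h (by lia)

theorem dl_hg {n : ℤ} {f : S6} (h : V.Hg n f) (a : Fin 6 → ℂ) : V.Hg (n - 2) (dl a f) :=
  hga_sum _ fun i _ => hga_mul' (grd_hg h i) (hg_C _) (add_zero _)

theorem grd_X (n : ℕ) {f : S6} (h : V.Hg (2 * n) f) : grd f ⬝ᵥ X = n * f := by
  rw [dotProduct_comm, ← nsmul_eq_mul]
  exact (hom_of_hg h).sum_X_mul_pderiv

theorem grd_dl (a : Fin 6 → ℂ) (f : S6) (i : Fin 6) : grd (dl a f) i = dl a (grd f i) := by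
  simp only [grd, dl, cv, dotProduct, map_sum, Derivation.leibniz, pderiv_C, smul_eq_mul,
    mul_zero, zero_add, pd_swap f i]
  exact Finset.sum_congr rfl fun _ _ => mul_comm _ _

theorem eval_dl (n : ℕ) {f : S6} (h : V.Hg (2 * n) f) (a : Fin 6 → ℂ) :
    eval a (dl a f) = n * eval a f := by
  simpa [dl, cv, dotProduct] using congrArg (eval a) (grd_X n h)

theorem eval_zero_of {n : ℤ} {f : S6} (h : V.Hg n f) (hn : n ≠ 0) : evS 0 f = 0 := by
  rw [evS_apply, eval_zero, constantCoeff_eq, hg_coeff_zero h hn, C_0]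

theorem evS_const {f : S6} (h : V.Hg 0 f) (a : Fin 6 → ℂ) : evS a f = f := by
  rw [hg_zero_eq h]
  exact (evS a).commutes _

theorem mpart_evS {p : ι → ℤ} {q : κ → ℤ} {j : ℤ} {g : Matrix κ ι S6} (h : g ∈ MM p q j)
    (a : Fin 6 → ℂ) : mpart p q j (g.map (evS a)) = g.map (evS 0) := by
  ext k l : 1
  rw [mpart, of_apply, map_apply, map_apply]
  by_cases h0 : j + p l - q k = 0
  · have h1 : V.Hg 0 (g k l) := h0 ▸ h k l
    rw [evS_const h1, evS_const h1, h0, hpart_eq_self h1]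
  · rw [eval_zero_of (h k l) h0, evS_apply]
    ext m
    rw [coeff_hpart, coeff_C]
    split_ifs with h2 h3
    · rw [← h3, map_zero, Nat.cast_zero, mul_zero] at h2
      exact absurd h2.symm h0
    · rfl
    · rfl

theorem smul_cancel {f : S6} (hf : f ≠ 0) {M : Matrix κ ι S6} (h : f • M = 0) : M = 0 := by
  ext k l : 1
  exact (mul_eq_zero.1 (congrFun (congrFun h k) l)).resolve_left hf

namespace Clf

variable (Q : Clf 6 ι)

theorem K_zero : Q.K 0 0 = 0 := by simp [K]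

/-- the algebraic heart: a cubic identity on the cubic forces the vanishing -/
theorem vanish (hW : V.Hg 6 W) (hs : Sm W) {Ω : Matrix ι κ S6} (hΩ : Ω ∈ MM 0 0 0)
    (h3 : diagonal (fun k => (Q.ν k : S6)) * Ω = (3 : S6) • Ω)
    (h : ∀ a, eval a W = 0 → Q.K (cv a) 0 * Q.K 0 (fun i => evS a (grd W i)) * Ω = 0) : Ω = 0 := by
  have hF : Q.K X 0 * Q.K 0 (grd W) * Ω ∈ MM 0 0 6 :=
    MM_mul (MM_mul (Q.K_mem0 hga_X fun _ => hga_zero _)
      (Q.K_mem0 (j := 6 - 2) (fun _ => hga_zero _) (grd_hg hW)) rfl) hΩ (by norm_num)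
  have h1 : ∀ k l, ∃ g, V.Hg 0 g ∧ (Q.K X 0 * Q.K 0 (grd W) * Ω) k l = W * g := fun k l => by
    obtain ⟨g, hg⟩ := dvd_of_van hs (f := (Q.K X 0 * Q.K 0 (grd W) * Ω) k l) fun a ha => by
      have e : (Q.K X 0 * Q.K 0 (grd W) * Ω).map (evS a) = 0 := by
        rw [Matrix.map_mul, Matrix.map_mul, K_map, K_map, map_of_const hΩ, ← h a ha]
        simp only [Pi.zero_apply, map_zero, evS_apply, eval_X]
        rfl
      exact C_eq_zero.1 (congrFun (congrFun e k) l)
    exact exists_hg_of_eq_mul (n := 6) hW (hF k l) hg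
  choose g hg hg' using h1
  have hΓ : of g ∈ MM (0 : κ → ℤ) (0 : ι → ℤ) 0 := hg
  have e1 : Q.K X 0 * Q.K 0 (grd W) * Ω = W • of g := Matrix.ext hg'
  generalize of g = Γ at hΓ e1
  have h0 := (sqf hs).ne_zero
  have e2 : Q.K X 0 * Γ = 0 := smul_cancel h0 (by
    rw [← Matrix.mul_smul, ← e1, ← Matrix.mul_assoc, ← Matrix.mul_assoc, K_sq, zero_dotProduct,
      zero_smul, Matrix.zero_mul, Matrix.zero_mul])
  have e3 : ∀ i, Q.c i * Γ = 0 := fun i => by
    have := congrArg (fun M => M.map (evS (Pi.single i 1))) e2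
    simp only [Matrix.map_mul, K_map, map_of_const hΓ, Matrix.map_zero _ (map_zero _)] at this
    rw [← this]
    simp [K, evS_apply, Pi.single_apply, apply_ite C]
  have e4 : Q.K 0 (grd W) * (Γ - (3 : S6) • Ω) = 0 := smul_cancel h0 (by
    have a1 := Q.K_acomm 0 (grd W) X 0
    rw [zero_dotProduct, add_zero, grd_X 3 hW] at a1
    rw [Matrix.mul_sub, smul_sub, ← Matrix.mul_smul, ← e1, ← Matrix.mul_assoc, ← Matrix.mul_assoc,
      eq_sub_of_add_eq a1, Matrix.sub_mul, Matrix.mul_assoc _ (Q.K 0 _), K_sq, dotProduct_zero,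
      zero_smul, Matrix.mul_zero, sub_zero, Matrix.smul_mul, Matrix.one_mul, Matrix.smul_mul,
      Matrix.mul_smul, smul_smul, mul_comm W, Nat.cast_ofNat, sub_self])
  have hΔ : Γ - (3 : S6) • Ω ∈ MM (0 : κ → ℤ) (0 : ι → ℤ) 0 :=
    sub_mem hΓ (MM_smul (hg_C 3) hΩ rfl)
  generalize hd : Γ - (3 : S6) • Ω = Δ at hΔ e4
  have e5 : ∀ i, Q.b i * Δ = 0 := fun i => by
    ext k l : 1
    have a1 : ∀ j, (Q.b j * Δ) k l = C (coeff 0 ((Q.b j * Δ) k l)) := fun j =>
      hg_zero_eq (MM_mul (Q.kb j) hΔ rfl k l)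
    generalize hm : (fun j => coeff 0 ((Q.b j * Δ) k l)) = m
    have a2 : dl m W = 0 := by
      have := congrFun (congrFun e4 k) l
      simp only [K, Pi.zero_apply, zero_smul, Finset.sum_const_zero, zero_add, Matrix.sum_mul,
        Matrix.smul_mul, Matrix.sum_apply, Matrix.smul_apply, smul_eq_mul] at this
      rw [dl, dotProduct]
      refine Eq.trans (Finset.sum_congr rfl fun j _ => ?_) this
      rw [a1, ← hm]
      rfl
    have a3 : m = 0 := hs m fun j => by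
      have := eval_dl 2 (grd_hg hW j) m
      rw [← grd_dl, a2, grd, map_zero, map_zero] at this
      exact (mul_eq_zero.1 this.symm).resolve_left (by norm_num)
    rw [a1, congrFun (hm.trans a3) i, Pi.zero_apply, C_0, Matrix.zero_apply]
  have e6 : diagonal (fun k => (Q.ν k : S6)) * Γ = (6 : S6) • Γ := by
    have : ∀ i, Q.c i * Q.b i * Γ = Γ := fun i => by
      have a1 := Q.bc i i
      rw [if_pos rfl] at a1
      rw [eq_sub_of_add_eq' a1, Matrix.sub_mul, Matrix.mul_assoc, e3, Matrix.mul_zero, sub_zero,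
        Matrix.one_mul]
    rw [← Q.num, Matrix.sum_mul, Finset.sum_congr rfl fun i _ => this i, Finset.sum_const,
      Finset.card_fin, ← Nat.cast_smul_eq_nsmul S6, Nat.cast_ofNat]
  have e7 : diagonal (fun k => (Q.ν k : S6)) * Δ = 0 := by
    rw [← Q.num, Matrix.sum_mul]
    exact Finset.sum_eq_zero fun i _ => by rw [Matrix.mul_assoc, e5, Matrix.mul_zero]
  rw [← hd, Matrix.mul_sub, Matrix.mul_smul, e6, h3] at e7
  have e8 := congrArg (fun M => diagonal (fun k => (Q.ν k : S6)) * M) e7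
  simp only [Matrix.mul_sub, Matrix.mul_smul, e6, h3, Matrix.mul_zero] at e8
  refine smul_cancel (f := 27) (by norm_num) ?_
  linear_combination (norm := module) e8 - (6 : S6) • e7

end Clf

/-- the second sequence of the stabilised residue field -/
def ww (W : S6) : Fin 6 → S6 := (2 * C 6⁻¹ : S6) • grd W

theorem six_mul : (6 : S6) * C 6⁻¹ = 1 := by
  rw [← map_ofNat (C : ℂ →+* S6) 6, ← C_mul, mul_inv_cancel₀ (by norm_num), C_1]

theorem ww_hg (hW : V.Hg 6 W) (i : Fin 6) : V.Hg 4 (ww W i) :=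
  hga_mul' (hga_mul (hg_C 2) (hg_C _)) (grd_hg hW i) (by norm_num)

theorem ww_X (hW : V.Hg 6 W) : ww W ⬝ᵥ X = W := by
  rw [ww, smul_dotProduct, grd_X 3 hW, smul_eq_mul, Nat.cast_ofNat]
  linear_combination W * six_mul

/-- the stabilised residue field -/
def Clf.G {m : ℕ} (Q : Clf 6 (Fin m)) (hW : V.Hg 6 W) (t : ℤ) : V.GMF W m :=
  ⟨Q.p t, Q.K X (ww W), (Q.isMF t (ww_hg hW) (ww_X hW)).deg, (Q.isMF t (ww_hg hW) (ww_X hW)).sq⟩

theorem Clf.nat {m : ℕ} (Q : Clf 6 (Fin m)) (hW : V.Hg 6 W) (t : ℤ)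
    (α : V.GMF W m → Matrix (Fin m) (Fin m) S6) (hα : ∀ X, α X ∈ ZZ X.p X.d X.p (-X.d) 3)
    (hn : ∀ X Y : V.GMF W m, ∀ f ∈ ZZ X.p X.d Y.p Y.d 0,
      f * α X - α Y * f ∈ BB X.p X.d Y.p (-Y.d) 3) (a : Fin 6 → ℂ) (ha : eval a W = 0) :
    Q.K (cv a) 0 * ((α (Q.G hW t)).map (evS 0) * Q.K 0 (fun i => evS a (grd W i)) +
      Q.K 0 (fun i => evS a (grd W i)) * (α (Q.G hW t)).map (evS 0)) = 0 := by
  rcases eq_or_ne a 0 with rfl | h0
  · rw [show cv 0 = 0 from funext fun _ => C_0, K_zero, Matrix.zero_mul]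
  obtain ⟨i₀, hi⟩ := Function.ne_iff.1 h0
  obtain ⟨l, hl, hl'⟩ : ∃ l : S6, V.Hg 2 l ∧ evS a l = 1 :=
    ⟨C (a i₀)⁻¹ * X i₀, hga_mul' (hg_C _) (hga_X _) (zero_add _), by
      rw [evS_apply, map_mul, eval_C, eval_X, inv_mul_cancel₀ hi, C_1]⟩
  have d1 : V.Hg 4 (dl a W) := dl_hg hW a
  have d2 : V.Hg 2 (dl a (dl a W)) := dl_hg d1 a
  have d3 : dl a (dl a (dl a W)) = 0 := by
    rw [← evS_const (dl_hg d2 a) a, evS_apply, eval_dl 1 d2, eval_dl 2 d1, eval_dl 3 hW, ha,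
      mul_zero, mul_zero, mul_zero, C_0]
  obtain ⟨u, hu⟩ : ∃ u, u = -((C 6⁻¹ : S6) • grd (dl a W)) - (l * C 6⁻¹) • grd (dl a (dl a W)) :=
    ⟨_, rfl⟩
  have u2 : ∀ i, V.Hg 2 (u i) := fun i => hu ▸ hga_sub
    (hga_neg (hga_mul' (hg_C _) (grd_hg d1 i) (by norm_num)))
    (hga_mul' (hga_mul hl (hg_C _)) (grd_hg d2 i) (by norm_num))
  have ρ : ww W ⬝ᵥ cv a + u ⬝ᵥ X - l * u ⬝ᵥ cv a = 0 := by
    have a1 : ∀ f, grd f ⬝ᵥ cv a = dl a f := fun _ => rfl
    simp only [hu, ww, sub_dotProduct, neg_dotProduct, smul_dotProduct, grd_X 2 d1, grd_X 1 d2, a1,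
      d3, smul_eq_mul]
    push_cast
    ring
  have c1 := Q.K_acomm X (ww W) (cv a) u
  have c2 := Q.K_sq (cv a) u
  have c3 : (Q.K X (ww W) - l • Q.K (cv a) u) * Q.K (cv a) u + Q.K (cv a) u * Q.K X (ww W) = 0 := by
    rw [Matrix.sub_mul, Matrix.smul_mul, sub_add_eq_add_sub, c1, c2, smul_smul, ← sub_smul, ρ,
      zero_smul]
  have v2 : ∀ i, V.Hg 2 ((X - l • cv a : Fin 6 → S6) i) := fun i =>
    hga_sub (hga_X i) (hga_mul' hl (hg_C _) (add_zero _))
  have v4 : ∀ i, V.Hg 4 ((ww W - l • u) i) := fun i =>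
    hga_sub (ww_hg hW i) (hga_mul' hl (u2 i) (by norm_num))
  let P : V.GMF W m := ⟨Q.p (t - 1), -Q.K (X - l • cv a) (ww W - l • u),
    neg_mem (S := Submodule ℂ _) (s := MM _ _ 3) (Q.K_mem (t - 1) v2 v4), by
      rw [neg_mul_neg, K_sub, Matrix.mul_sub, Matrix.mul_smul, eq_neg_of_add_eq_zero_left c3,
        Matrix.sub_mul, Matrix.smul_mul, smul_neg, sub_neg_eq_add, sub_add_cancel, K_sq, ww_X hW]⟩
  obtain ⟨h, -, e1⟩ := hn (Q.G hW t) P (Q.K (cv a) u) ⟨MM_cast (Q.K_mem t (j := 1)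
    (fun _ => hg_C _) u2) fun _ _ => by simp only [P, G, p]; lia, by
      simp only [P, G]
      rw [K_sub, Matrix.neg_mul, neg_eq_iff_add_eq_zero, c3]⟩
  have z1 : ∀ {n : ℤ} {v : Fin 6 → S6}, (∀ i, V.Hg n (v i)) → n ≠ 0 →
      (fun i => evS 0 (v i)) = 0 := fun h hn => funext fun i => eval_zero_of (h i) hn
  have e2 := congrArg (evS 0).mapMatrix e1
  simp only [P, G, map_sub, map_add, map_mul, neg_neg] at e2
  simp only [AlgHom.mapMatrix_apply, K_map, z1 v2 two_ne_zero, z1 v4 four_ne_zero,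
    z1 u2 two_ne_zero, z1 hga_X two_ne_zero, z1 (ww_hg hW) four_ne_zero, K_zero, Matrix.zero_mul,
    Matrix.mul_zero, add_zero, sub_eq_zero] at e2
  rw [show (fun i => evS 0 (cv a i)) = cv a from funext fun i => evS_const (hg_C _) 0] at e2
  have e3 := congrArg (evS a).mapMatrix (hα P).2
  simp only [P, map_mul, map_neg, neg_neg] at e3
  simp only [AlgHom.mapMatrix_apply, K_map] at e3
  have y1 : (fun i => evS a ((X - l • cv a : Fin 6 → S6) i)) = 0 := funext fun i => by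
    rw [Pi.sub_apply, Pi.smul_apply, smul_eq_mul, map_sub, map_mul, hl', one_mul, cv,
      evS_const (hg_C _), evS_apply, eval_X, sub_self, Pi.zero_apply]
  have y2 : (fun i => evS a ((ww W - l • u) i)) = fun i => evS a (grd W i) := funext fun i => by
    have g4 : V.Hg 4 (grd W i) := grd_hg hW i
    have b1 : evS a (dl a (grd W i)) = 2 * evS a (grd W i) := by
      rw [evS_apply, evS_apply, eval_dl 2 g4, C_mul, Nat.cast_ofNat, map_ofNat]
    have b2 : evS a (dl a (dl a (grd W i))) = evS a (dl a (grd W i)) := by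
      rw [evS_apply, evS_apply, eval_dl 1 (dl_hg g4 a), Nat.cast_one, one_mul]
    simp only [hu, ww, Pi.sub_apply, Pi.smul_apply, Pi.neg_apply, smul_eq_mul, grd_dl, map_sub,
      map_mul, map_neg, hl', b2, b1, evS_const (hg_C _), map_ofNat]
    linear_combination evS a (grd W i) * six_mul
  rw [y1, y2] at e3
  have hB : Q.K 0 (fun i => evS a (grd W i)) ∈ MM P.p P.p (-1) :=
    Q.K_mem _ (fun _ => hga_zero _) fun _ => hg_C _
  have e4 := congrArg (mpart P.p P.p 2) e3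
  rw [mpart_mul_left _ hB, mpart_mul_right _ (neg_mem hB), show (2 : ℤ) - -1 = 3 from rfl,
    mpart_evS (hα P).1] at e4
  have e5 := Q.K_acomm 0 (fun i => evS a (grd W i)) (cv a) 0
  have y3 : (fun i => evS a (grd W i)) ⬝ᵥ cv a = 0 := by
    have : evS a (dl a W) = 0 := by rw [evS_apply, eval_dl 3 hW, ha, mul_zero, C_0]
    simpa only [dl, dotProduct, map_sum, map_mul, cv, evS_const (hg_C _)] using this
  rw [y3, zero_dotProduct, add_zero, zero_smul] at e5
  change Q.K (cv a) 0 * (α (Q.G hW t)).map (evS 0) = (α P).map (evS 0) * Q.K (cv a) 0 at e2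
  generalize Q.K (cv a) 0 = c, Q.K 0 (fun i => evS a (grd W i)) = B,
    (α (Q.G hW t)).map (evS 0) = A, (α P).map (evS 0) = β at e2 e4 e5 ⊢
  rw [Matrix.mul_add, ← Matrix.mul_assoc, ← Matrix.mul_assoc, e2, eq_neg_of_add_eq_zero_right e5,
    Matrix.neg_mul, Matrix.mul_assoc B, e2, ← Matrix.mul_assoc B, e4, Matrix.mul_assoc β c,
    eq_neg_of_add_eq_zero_right e5]
  simp only [Matrix.mul_neg, Matrix.neg_mul, Matrix.mul_assoc, neg_neg, neg_add_cancel]

/-- a natural transformation from the identity to the shift vanishes on the residue field -/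
theorem Clf.G_bb {m : ℕ} (Q : Clf 6 (Fin m)) (hW : V.Hg 6 W) (hs : Sm W) (t : ℤ)
    (α : V.GMF W m → Matrix (Fin m) (Fin m) S6) (hα : ∀ X, α X ∈ ZZ X.p X.d X.p (-X.d) 3)
    (hn : ∀ X Y : V.GMF W m, ∀ f ∈ ZZ X.p X.d Y.p Y.d 0,
      f * α X - α Y * f ∈ BB X.p X.d Y.p (-Y.d) 3) :
    α (Q.G hW t) ∈ BB (Q.G hW t).p (Q.G hW t).d (Q.G hW t).p (-(Q.G hW t).d) 3 := by
  have hG := isMF_gmf (Q.G hW t)
  have hA := hα (Q.G hW t)
  let E : Matrix (Fin m) Unit S6 := of fun k _ => if k = Q.o then 1 else 0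
  have hE : ∀ M : Matrix (Fin m) (Fin m) S6, M * E = of fun k _ => M k Q.o := fun M => by
    ext k l : 1
    simp [E, mul_apply]
  have h0 : (α (Q.G hW t)).map (evS 0) * E = 0 := by
    refine Q.vanish hW hs (hE _ ▸ fun k l => hg_C _) ?_ fun a ha => ?_
    · rw [hE]
      ext k l : 1
      rw [diagonal_mul, Matrix.smul_apply, of_apply, map_apply, smul_eq_mul]
      by_cases h : Q.ν k = 3
      · rw [h, Nat.cast_ofNat]
      · rw [eval_zero_of (hA.1 k Q.o) (by
          simp only [Clf.G, Clf.p, (Q.vac _).2 rfl]; lia), mul_zero, mul_zero]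
    · have h1 := congrArg (· * E) (Q.nat hW t α hα hn a ha)
      have h2 : Q.K 0 (fun i => evS a (grd W i)) * E = 0 := by
        rw [hE]
        ext k l : 1
        simp [Clf.K, Matrix.sum_apply, Q.b_vac]
      simpa only [Matrix.mul_assoc, Matrix.add_mul, h2, Matrix.mul_zero, zero_add,
        Matrix.zero_mul] using h1
  obtain ⟨u, hu, -, e⟩ := Q.factK (ww_hg hW) (ww_X hW)
    (⟨neg_mem hG.deg, by rw [neg_mul_neg, hG.sq]⟩ : IsMF W (Q.G hW t).p (-(Q.G hW t).d)) hA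
    (funext fun k => by
      have := congrFun (congrFun ((hE _).symm.trans h0) k) ()
      rw [of_apply, map_apply, evS_apply, eval_zero] at this
      exact C_eq_zero.1 this)
  exact ⟨u, hu, e⟩

theorem stNat : StNat := by
  intro W hW hs α hα hn n Y hY
  obtain ⟨m, ⟨Q⟩⟩ := exists_clf 6
  obtain ⟨t, ht⟩ := Q.exists_eul hW (ww_hg hW) (ww_X hW) (isMF_gmf Y) hY
  exact ⟨m, Q.G hW t, Q.G_bb hW hs t (α m) (hα m) (hn m m),
    eul_symm hW hs (isMF_gmf (Q.G hW t)) (isMF_gmf Y) ▸ ht, ht⟩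

end Vale.Agent.P287T.Au
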