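import Vale.Agent.P287T.Cy.Alg

/-!
# Clifford matrices and Koszul matrix factorizations (P287 phase 2, leaf NAT)
-/

set_option linter.unusedSectionVars false

open MvPolynomial Matrix

noncomputable section

namespace Vale.Agent.P287T.Au

open Vale.Agent.P287T.Cy Vale.Agent.P287Z.O Vale.Agent.P287Z.O.L

variable {ι κ : Type}

theorem MM_cast {p p' : ι → ℤ} {q q' : κ → ℤ} {j j' : ℤ} {g : Matrix κ ι S6} (h : g ∈ MM p q j)
    (e : ∀ i l, j + p l - q i = j' + p' l - q' i) : g ∈ MM p' q' j' := fun i l => e i l ▸ h i l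

theorem MM_blocks {p p' : ι → ℤ} {j : ℤ} {A B C D : Matrix ι ι S6} (hA : A ∈ MM p p j)
    (hB : B ∈ MM p' p j) (hC : C ∈ MM p p' j) (hD : D ∈ MM p' p' j) :
    fromBlocks A B C D ∈ MM (Sum.elim p p') (Sum.elim p p') j := by
  rintro (k | k) (l | l)
  exacts [hA k l, hB k l, hC k l, hD k l]

theorem MM_blocks0 {A B C D : Matrix ι ι S6} (hA : A ∈ MM 0 0 0)
    (hB : B ∈ MM 0 0 0) (hC : C ∈ MM 0 0 0) (hD : D ∈ MM 0 0 0) :
    fromBlocks A B C D ∈ MM 0 0 0 := by
  rintro (k | k) (l | l)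
  exacts [hA k l, hB k l, hC k l, hD k l]

/-- creation and annihilation matrices with a number operator and a vacuum -/
structure Clf (n : ℕ) (ι : Type) [Fintype ι] [DecidableEq ι] where
  c : Fin n → Matrix ι ι S6
  b : Fin n → Matrix ι ι S6
  ν : ι → ℕ
  o : ι
  cc : ∀ i j, c i * c j + c j * c i = 0
  bb : ∀ i j, b i * b j + b j * b i = 0
  bc : ∀ i j, b i * c j + c j * b i = if i = j then 1 else 0
  dc : ∀ i, c i ∈ MM (fun k => (ν k : ℤ)) (fun k => (ν k : ℤ)) 1
  db : ∀ i, b i ∈ MM (fun k => (ν k : ℤ)) (fun k => (ν k : ℤ)) (-1)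
  kc : ∀ i, c i ∈ MM 0 0 0
  kb : ∀ i, b i ∈ MM 0 0 0
  num : ∑ i, c i * b i = diagonal fun k => (ν k : S6)
  vac : ∀ k, ν k = 0 ↔ k = o

variable [Fintype ι] [DecidableEq ι] [Fintype κ] [DecidableEq κ] {n : ℕ}

/-- change of the index set -/
def Clf.re (Q : Clf n ι) (e : κ ≃ ι) : Clf n κ where
  c i := (Q.c i).submatrix e e
  b i := (Q.b i).submatrix e e
  ν k := Q.ν (e k)
  o := e.symm Q.o
  cc i j := by
    rw [submatrix_mul_equiv, submatrix_mul_equiv]
    exact congrArg (fun M => M.submatrix e e) (Q.cc i j)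
  bb i j := by
    rw [submatrix_mul_equiv, submatrix_mul_equiv]
    exact congrArg (fun M => M.submatrix e e) (Q.bb i j)
  bc i j := by
    rw [submatrix_mul_equiv, submatrix_mul_equiv]
    refine (congrArg (fun M => M.submatrix e e) (Q.bc i j)).trans ?_
    split_ifs
    exacts [submatrix_one_equiv e, rfl]
  dc i k l := Q.dc i _ _
  db i k l := Q.db i _ _
  kc i k l := Q.kc i (e k) (e l)
  kb i k l := Q.kb i (e k) (e l)
  num := by
    have := congrArg (fun M => M.submatrix e e) Q.num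
    simp only [submatrix_diagonal_equiv] at this
    refine Eq.trans ?_ this
    ext k l : 1
    simp only [submatrix_mul_equiv, Matrix.sum_apply, submatrix_apply]
  vac k := by rw [Q.vac, Equiv.eq_symm_apply]

theorem elim_cast (ν : ι → ℕ) : (fun k => ((Sum.elim ν (fun l => ν l + 1) k : ℕ) : ℤ)) =
    Sum.elim (fun k => (ν k : ℤ)) fun k => (ν k : ℤ) + 1 := by
  funext k
  cases k <;> simp

/-- one more pair of generators -/
def Clf.succ (Q : Clf n ι) : Clf (n + 1) (ι ⊕ ι) where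
  c := Fin.cons (fromBlocks 0 0 1 0) fun i => fromBlocks (Q.c i) 0 0 (-Q.c i)
  b := Fin.cons (fromBlocks 0 1 0 0) fun i => fromBlocks (Q.b i) 0 0 (-Q.b i)
  ν := Sum.elim Q.ν fun l => Q.ν l + 1
  o := Sum.inl Q.o
  cc i j := by
    cases i using Fin.cases <;> cases j using Fin.cases <;>
      simp [fromBlocks_multiply, fromBlocks_add, Q.cc]
  bb i j := by
    cases i using Fin.cases <;> cases j using Fin.cases <;>
      simp [fromBlocks_multiply, fromBlocks_add, Q.bb]
  bc i j := by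
    cases i using Fin.cases <;> cases j using Fin.cases <;>
      simp [fromBlocks_multiply, fromBlocks_add, Q.bc, (Fin.succ_ne_zero _).symm]
    split_ifs <;> simp
  dc i := by
    rw [elim_cast]
    cases i using Fin.cases
    · exact MM_blocks (zero_mem _) (zero_mem _)
        (MM_cast (MM_one fun k => (Q.ν k : ℤ)) fun _ _ => by lia) (zero_mem _)
    · exact MM_blocks (Q.dc _) (zero_mem _) (zero_mem _)
        (neg_mem (MM_cast (Q.dc _) fun _ _ => by lia))
  db i := by
    rw [elim_cast]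
    cases i using Fin.cases
    · exact MM_blocks (zero_mem _) (MM_cast (MM_one fun k => (Q.ν k : ℤ)) fun _ _ => by lia)
        (zero_mem _) (zero_mem _)
    · exact MM_blocks (Q.db _) (zero_mem _) (zero_mem _)
        (neg_mem (MM_cast (Q.db _) fun _ _ => by lia))
  kc i := by
    cases i using Fin.cases
    · exact MM_blocks0 (zero_mem _) (zero_mem _) (MM_one _) (zero_mem _)
    · exact MM_blocks0 (Q.kc _) (zero_mem _) (zero_mem _) (neg_mem (Q.kc _))
  kb i := by
    cases i using Fin.cases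
    · exact MM_blocks0 (zero_mem _) (MM_one _) (zero_mem _) (zero_mem _)
    · exact MM_blocks0 (Q.kb _) (zero_mem _) (zero_mem _) (neg_mem (Q.kb _))
  num := by
    have h := fun k l => congrFun (congrFun Q.num k) l
    simp only [Matrix.sum_apply] at h
    rw [Fin.sum_univ_succ]
    ext (k | k) (l | l) : 1 <;>
      simp [fromBlocks_multiply, Matrix.sum_apply, h, diagonal_apply, one_apply]
    split_ifs <;> simp [add_comm]
  vac k := by cases k <;> simp [Q.vac]

theorem exists_clf (n : ℕ) : ∃ m, Nonempty (Clf n (Fin m)) := by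
  induction n with
  | zero =>
    exact ⟨1, ⟨⟨Fin.elim0, Fin.elim0, 0, 0, Fin.rec0, Fin.rec0, Fin.rec0, Fin.rec0, Fin.rec0,
      Fin.rec0, Fin.rec0, by simp, fun k => by simp [Subsingleton.elim k 0]⟩⟩⟩
  | succ n ih =>
    obtain ⟨m, ⟨Q⟩⟩ := ih
    exact ⟨m + m, ⟨Q.succ.re finSumFinEquiv.symm⟩⟩

namespace Clf

variable (Q : Clf 6 ι)

/-- the Koszul matrix of two sequences -/
def K (v u : Fin 6 → S6) : Matrix ι ι S6 := ∑ i, v i • Q.c i + ∑ i, u i • Q.b i

theorem sum_acomm (A B : Fin 6 → Matrix ι ι S6) (v u : Fin 6 → S6) :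
    (∑ i, v i • A i) * (∑ i, u i • B i) + (∑ i, u i • B i) * (∑ i, v i • A i) =
      ∑ i, ∑ j, (v i * u j) • (A i * B j + B j * A i) := by
  rw [Finset.sum_mul_sum, Finset.sum_mul_sum, Finset.sum_comm (f := fun j i => u j • B j * v i • A i),
    ← Finset.sum_add_distrib]
  refine Finset.sum_congr rfl fun i _ => ?_
  rw [← Finset.sum_add_distrib]
  refine Finset.sum_congr rfl fun j _ => ?_
  rw [smul_mul_smul_comm, smul_mul_smul_comm, smul_add, mul_comm (u j)]

theorem K_acomm (v u v' u' : Fin 6 → S6) :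
    Q.K v u * Q.K v' u' + Q.K v' u' * Q.K v u = (u ⬝ᵥ v' + u' ⬝ᵥ v) • (1 : Matrix ι ι S6) := by
  have h1 := sum_acomm Q.c Q.c v v'
  have h2 := sum_acomm Q.b Q.b u u'
  have h3 := sum_acomm Q.b Q.c u v'
  have h4 := sum_acomm Q.b Q.c u' v
  simp only [Q.cc, Q.bb, Q.bc, smul_zero, Finset.sum_const_zero, smul_ite, Finset.sum_ite_eq,
    Finset.mem_univ, if_true, ← Finset.sum_smul] at h1 h2 h3 h4
  rw [add_smul, dotProduct, dotProduct, ← h3, ← h4, ← add_zero (_ + _ + (_ + _)), ← zero_add 0]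
  nth_rewrite 1 [← h1, ← h2]
  simp only [K, add_mul, mul_add]
  abel

theorem K_sq (v u : Fin 6 → S6) : Q.K v u * Q.K v u = (u ⬝ᵥ v) • (1 : Matrix ι ι S6) := by
  have h := Q.K_acomm v u v u
  rw [add_smul, ← two_smul ℂ, ← two_smul ℂ ((u ⬝ᵥ v) • _)] at h
  exact smul_right_injective _ two_ne_zero h

theorem K_sub (v u v' u' : Fin 6 → S6) (r : S6) :
    Q.K (v - r • v') (u - r • u') = Q.K v u - r • Q.K v' u' := by
  simp only [K, Pi.sub_apply, Pi.smul_apply, sub_smul, Finset.sum_sub_distrib, smul_add,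
    Finset.smul_sum, smul_eq_mul, mul_smul]
  abel

theorem K_deg {p : ι → ℤ} {s j : ℤ} (hc : ∀ i, Q.c i ∈ MM p p s) (hb : ∀ i, Q.b i ∈ MM p p (-s))
    {v u : Fin 6 → S6} (hv : ∀ i, V.Hg (j - s) (v i)) (hu : ∀ i, V.Hg (j + s) (u i)) :
    Q.K v u ∈ MM p p j :=
  add_mem (sum_mem fun i _ => MM_smul (hv i) (hc i) (by lia))
    (sum_mem fun i _ => MM_smul (hu i) (hb i) (by lia))

/-- the charges, with the vacuum in charge `s` -/
def p (s : ℤ) : ι → ℤ := fun k => Q.ν k + s

theorem K_mem (s : ℤ) {j : ℤ} {v u : Fin 6 → S6} (hv : ∀ i, V.Hg (j - 1) (v i))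
    (hu : ∀ i, V.Hg (j + 1) (u i)) : Q.K v u ∈ MM (Q.p s) (Q.p s) j :=
  MM_cast (Q.K_deg Q.dc Q.db hv hu) fun _ _ => by simp only [p]; lia

theorem K_mem0 {j : ℤ} {v u : Fin 6 → S6} (hv : ∀ i, V.Hg j (v i))
    (hu : ∀ i, V.Hg j (u i)) : Q.K v u ∈ MM 0 0 j :=
  Q.K_deg (s := 0) Q.kc Q.kb (by simpa using hv) (by simpa using hu)

end Clf

theorem hg_zero_eq {f : S6} (h : V.Hg 0 f) : f = C (coeff 0 f) := by
  refine totalDegree_eq_zero_iff_eq_C.1 (Nat.le_zero.1 ?_)
  exact hg_totalDegree h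

theorem hg_coeff_zero {j : ℤ} {f : S6} (h : V.Hg j f) (hj : j ≠ 0) : coeff 0 f = 0 := by
  by_contra h0
  have := hg_iff.1 h 0 (mem_support_iff.2 h0)
  simp only [map_zero, Nat.cast_zero, mul_zero] at this
  exact hj this.symm

theorem map_of_const {M : Matrix κ ι S6} (h : M ∈ MM 0 0 0) (φ : S6 →ₐ[ℂ] S6) : M.map φ = M := by
  ext k l : 1
  rw [map_apply, hg_zero_eq (h k l)]
  exact φ.commutes _

theorem pderiv_of_const {M : Matrix κ ι S6} (h : M ∈ MM 0 0 0) (i : Fin 6) :
    M.map (pderiv i) = 0 := by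
  ext k l : 1
  rw [map_apply, hg_zero_eq (h k l), pderiv_C, Matrix.zero_apply]

theorem Clf.K_map (Q : Clf 6 ι) (φ : S6 →ₐ[ℂ] S6) (v u : Fin 6 → S6) :
    (Q.K v u).map φ = Q.K (fun i => φ (v i)) fun i => φ (u i) := by
  have hc := fun i k l => congrFun (congrFun (map_of_const (Q.kc i) φ) k) l
  have hb := fun i k l => congrFun (congrFun (map_of_const (Q.kb i) φ) k) l
  simp only [map_apply] at hc hb
  ext k l : 1
  simp only [Clf.K, map_apply, Matrix.add_apply, Matrix.sum_apply, Matrix.smul_apply, smul_eq_mul,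
    map_add, map_sum, map_mul, hc, hb]

theorem Clf.K_pderiv (Q : Clf 6 ι) (j : Fin 6) (v u : Fin 6 → S6) :
    (Q.K v u).map (pderiv j) = Q.K (fun i => pderiv j (v i)) fun i => pderiv j (u i) := by
  have hc := fun i k l => congrFun (congrFun (pderiv_of_const (Q.kc i) j) k) l
  have hb := fun i k l => congrFun (congrFun (pderiv_of_const (Q.kb i) j) k) l
  simp only [map_apply, Matrix.zero_apply] at hc hb
  ext k l : 1
  simp only [Clf.K, map_apply, Matrix.add_apply, Matrix.sum_apply, Matrix.smul_apply, smul_eq_mul,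
    map_add, map_sum, Derivation.leibniz, hc, hb, mul_zero, zero_add, mul_comm]

end Vale.Agent.P287T.Au
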