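import Vale.Agent.P287T.Au.Nat0
import Vale.Agent.P287T.Au.St
import Vale.Agent.P287T.Cy.Eq
import Mathlib.RingTheory.MvPolynomial.EulerIdentity
import Mathlib.LinearAlgebra.Matrix.Bilinear

/-!
# Maps from the stabilised residue field (P287 phase 2, leaf NAT)

For the Koszul factorization `G = K x w`, the homotopy classes of maps `G → Y` are the homology of
`Y` at the origin.
-/

set_option linter.unusedSectionVars false

open MvPolynomial Matrix Module

noncomputable section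

namespace Vale.Agent.P287T.Au

open Vale.Agent.P287T.Cy Vale.Agent.P287Z.O Vale.Agent.P287Z.O.L Vale.Agent.P287Z.T

variable {ι κ μ : Type} [Fintype ι] [DecidableEq ι] [Fintype κ] [DecidableEq κ] [Fintype μ]

theorem hom_of_hg {n : ℕ} {f : S6} (h : V.Hg (2 * n) f) : f.IsHomogeneous n := by
  intro m hm
  have := hg_iff.1 h m (mem_support_iff.2 hm)
  have h1 : Finsupp.weight 1 m = m.degree := by rw [Finsupp.degree_eq_weight_one]; rfl
  lia

theorem euler_kill {n : ℤ} {f : S6} (hf : V.Hg n f) {s : ℕ}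
    (h : ∑ i, X i * pderiv i f + f * s = 0) (h0 : s = 0 → coeff 0 f = 0) : f = 0 := by
  by_contra hne
  obtain ⟨m, rfl⟩ : ∃ m : ℕ, 2 * (m : ℤ) = n := by
    by_contra! hc
    exact hne (hga_eq_zero hf hc)
  rw [(hom_of_hg hf).sum_X_mul_pderiv, nsmul_eq_mul, mul_comm f, ← add_mul, ← Nat.cast_add,
    mul_eq_zero, Nat.cast_eq_zero] at h
  obtain ⟨rfl, rfl⟩ := Nat.add_eq_zero_iff.1 (h.resolve_right hne)
  exact hne ((hg_zero_eq hf).trans (by rw [h0 rfl, C_0]))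

namespace Clf

variable (Q : Clf 6 ι)

/-- the vacuum column at the origin -/
def ev (κ : Type) : Matrix κ ι S6 →ₗ[ℂ] κ → ℂ where
  toFun g k := coeff 0 (g k Q.o)
  map_add' _ _ := funext fun _ => coeff_add _ _ _
  map_smul' _ _ := funext fun _ => coeff_smul _ _ _

theorem ev_apply (g : Matrix κ ι S6) (k : κ) : Q.ev κ g k = constantCoeff (g k Q.o) := rfl

theorem ev_mul (e : Matrix μ κ S6) (g : Matrix κ ι S6) :
    Q.ev μ (e * g) = e.map constantCoeff *ᵥ Q.ev κ g := by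
  funext k
  simp only [ev_apply, mul_apply, map_sum, map_mul, mulVec, dotProduct, map_apply]

theorem b_eq_zero (i : Fin 6) {m l : ι} (h : Q.ν l ≤ Q.ν m) : Q.b i m l = 0 :=
  hga_neg_eq_zero (Q.db i m l) (by lia)

theorem b_vac (i : Fin 6) (m : ι) : Q.b i m Q.o = 0 :=
  Q.b_eq_zero i (by rw [(Q.vac _).2 rfl]; exact Nat.zero_le _)

theorem ev_K {w : Fin 6 → S6} : Q.ev ι (Q.K X w) = 0 := by
  funext k
  simp [ev_apply, K, Matrix.sum_apply, Q.b_vac]

/-- matrices whose columns of number below `s` vanish -/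
def Fil (κ : Type) (s : ℕ) : Submodule S6 (Matrix κ ι S6) where
  carrier := {g | ∀ k l, Q.ν l < s → g k l = 0}
  zero_mem' := fun _ _ _ => rfl
  add_mem' := fun h h' k l e => by rw [Matrix.add_apply, h k l e, h' k l e, add_zero]
  smul_mem' := fun c _ h k l e => by rw [Matrix.smul_apply, h k l e, smul_zero]

variable {Q} {s : ℕ} {g : Matrix κ ι S6}

theorem fil_left (e : Matrix μ κ S6) (h : g ∈ Q.Fil κ s) : e * g ∈ Q.Fil μ s := fun _ l hl =>
  Finset.sum_eq_zero fun m _ => mul_eq_zero_of_right _ (h m l hl)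

theorem fil_b (i : Fin 6) (h : g ∈ Q.Fil κ s) : g * Q.b i ∈ Q.Fil κ (s + 1) := fun k l hl =>
  Finset.sum_eq_zero fun m _ => by
    rcases lt_or_ge (Q.ν m) s with h1 | h1
    · exact mul_eq_zero_of_left (h k m h1) _
    · exact mul_eq_zero_of_right _ (Q.b_eq_zero i (by lia))

theorem fil_K (u : Fin 6 → S6) (h : g ∈ Q.Fil κ s) : g * Q.K 0 u ∈ Q.Fil κ s := by
  simp only [K, Pi.zero_apply, zero_smul, Finset.sum_const_zero, zero_add, Matrix.mul_sum,
    Matrix.mul_smul]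
  exact sum_mem fun i _ => Submodule.smul_mem _ _ fun k l hl => fil_b i h k l (by lia)

variable (Q)

/-- the Koszul homotopy -/
def H (κ : Type) : Matrix κ ι S6 →ₗ[ℂ] Matrix κ ι S6 :=
  ∑ i, mulRightLinearMap κ ℂ (Q.b i) ∘ₗ (pderiv i).toLinearMap.mapMatrix

theorem H_apply (g : Matrix κ ι S6) : Q.H κ g = ∑ i, g.map (pderiv i) * Q.b i := by
  rw [H, LinearMap.sum_apply]
  rfl

theorem ev_H (g : Matrix κ ι S6) : Q.ev κ (Q.H κ g) = 0 := by
  funext k
  simp [H_apply, ev_apply, Matrix.sum_apply, mul_apply, Q.b_vac]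

theorem c_eq (i : Fin 6) : Q.c i = Q.K (Pi.single i 1) 0 := by
  simp [K, Pi.single_apply]

theorem b_eq (i : Fin 6) : Q.b i = Q.K 0 (Pi.single i 1) := by
  simp [K, Pi.single_apply]

theorem K_add (v u : Fin 6 → S6) : Q.K v u = Q.K v 0 + Q.K 0 u := by simp [K]

variable {W : S6} {w : Fin 6 → S6} {q : κ → ℤ} {e : Matrix κ κ S6} {t j : ℤ}

theorem H_mem (hg : g ∈ MM (Q.p t) q j) : Q.H κ g ∈ MM (Q.p t) q (j - 3) := by
  rw [H_apply]
  exact sum_mem fun i _ => MM_mul (MM_pderiv hg i)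
    (MM_cast (Q.db i) fun _ _ => by simp only [p]; lia) (show -1 + (j - 2) = j - 3 by lia)

theorem isMF (t : ℤ) (hw : ∀ i, V.Hg 4 (w i)) (hW : w ⬝ᵥ X = W) : IsMF W (Q.p t) (Q.K X w) :=
  ⟨Q.K_mem t hga_X hw, by rw [K_sq, hW]⟩

theorem T_eq (h : e * g = g * Q.K X w) : e * Q.H κ g + Q.H κ g * Q.K X w =
    ∑ i, (X i : S6) • g.map (pderiv i) + g * diagonal (fun k => (Q.ν k : S6)) +
      ∑ i, (g * Q.K 0 (fun l => pderiv i (w l)) - e.map (pderiv i) * g) * Q.b i := by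
  rw [H_apply, ← Q.num, Matrix.mul_sum, Matrix.sum_mul, Matrix.mul_sum, ← Finset.sum_add_distrib,
    ← Finset.sum_add_distrib, ← Finset.sum_add_distrib]
  refine Finset.sum_congr rfl fun i _ => ?_
  have h1 := congrArg (fun M => M.map (pderiv i)) h
  simp only [map_pderiv_mul, K_pderiv, pderiv_X] at h1
  have h2 := Q.K_acomm 0 (Pi.single i 1) X w
  rw [← b_eq, dotProduct_zero, add_zero, single_one_dotProduct] at h2
  have h3 : (fun l => (Pi.single i 1 : Fin 6 → S6) l) = Pi.single i 1 := rfl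
  rw [h3, Q.K_add (Pi.single i 1), ← c_eq] at h1
  rw [← Matrix.mul_assoc, eq_sub_of_add_eq' h1, Matrix.mul_assoc _ (Q.b i), eq_sub_of_add_eq h2]
  simp only [Matrix.mul_add, Matrix.add_mul, Matrix.sub_mul, Matrix.mul_sub, Matrix.mul_assoc,
    Matrix.mul_smul, Matrix.mul_one]
  abel

theorem T_inj (hg : g ∈ ZZ (Q.p t) (Q.K X w) q e j) (h0 : Q.ev κ g = 0)
    (h : e * Q.H κ g + Q.H κ g * Q.K X w = 0) : g = 0 := by
  rw [Q.T_eq hg.2] at h
  have key : ∀ s, g ∈ Q.Fil κ s := fun s => by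
    induction s with
    | zero => exact fun _ _ hl => absurd hl (Nat.not_lt_zero _)
    | succ s ih =>
      intro k l hl
      have h1 := sum_mem (S := Q.Fil κ (s + 1)) (t := Finset.univ) fun i _ => fil_b i
        (sub_mem (fil_K (fun l => pderiv i (w l)) ih) (fil_left (e.map (pderiv i)) ih))
      have h2 := congrFun (congrFun h k) l
      rw [Matrix.add_apply, h1 k l hl, add_zero, Matrix.add_apply, mul_diagonal,
        Matrix.sum_apply] at h2
      refine euler_kill (hg.1 k l) h2 fun h3 => ?_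
      rw [(Q.vac l).1 h3]
      exact congrFun h0 k
  ext k l : 1
  exact key _ k l (Nat.lt_succ_self _)

/-- a closed map whose vacuum column vanishes at the origin is null-homotopic -/
theorem factK (hw : ∀ i, V.Hg 4 (w i)) (hW : w ⬝ᵥ X = W) (hY : IsMF W q e)
    (hg : g ∈ ZZ (Q.p t) (Q.K X w) q e j) (h0 : Q.ev κ g = 0) :
    ∃ u ∈ MM (Q.p t) q (j - 3), Q.ev κ u = 0 ∧ g = e * u + u * Q.K X w := by
  let Z := ZZ (Q.p t) (Q.K X w) q e j ⊓ LinearMap.ker (Q.ev κ)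
  let T : Matrix κ ι S6 →ₗ[ℂ] Matrix κ ι S6 :=
    (mulLeftLinearMap ι ℂ e + mulRightLinearMap κ ℂ (Q.K X w)) ∘ₗ Q.H κ
  have hT : ∀ z ∈ Z, T z ∈ Z := fun z hz => by
    refine ⟨bb_le_zz (Q.isMF t hw hW) hY j ⟨_, Q.H_mem hz.1.1, rfl⟩, ?_⟩
    change Q.ev κ (e * Q.H κ z + Q.H κ z * Q.K X w) = 0
    rw [map_add, ev_mul, ev_mul, ev_H, ev_K, mulVec_zero, mulVec_zero, add_zero]
  have := finite_ZZ (Q.p t) (Q.K X w) q e j
  have : Module.Finite ℂ Z := Submodule.finiteDimensional_of_le inf_le_left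
  have hi : Function.Injective (T.restrict hT) := (injective_iff_map_eq_zero _).2 fun z hz =>
    Subtype.ext (Q.T_inj z.2.1 z.2.2 (congrArg Subtype.val hz))
  obtain ⟨z, hz⟩ := LinearMap.injective_iff_surjective.1 hi ⟨g, hg, h0⟩
  exact ⟨Q.H κ z, Q.H_mem z.2.1.1, Q.ev_H _, (congrArg Subtype.val hz).symm⟩

end Clf

/-- vectors concentrated in charge `r` -/
def Vc (q : κ → ℤ) (r : ℤ) : Submodule ℂ (κ → ℂ) where
  carrier := {y | ∀ k, q k ≠ r → y k = 0}
  zero_mem' := fun _ _ => rfl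
  add_mem' := fun h h' k e => by rw [Pi.add_apply, h k e, h' k e, add_zero]
  smul_mem' := fun c _ h k e => by rw [Pi.smul_apply, h k e, smul_zero]

/-- cycles at the origin -/
def Zc (q : κ → ℤ) (e : Matrix κ κ S6) (r : ℤ) : Submodule ℂ (κ → ℂ) :=
  Vc q r ⊓ LinearMap.ker (e.map constantCoeff).mulVecLin

/-- boundaries at the origin -/
def Bc (q : κ → ℤ) (e : Matrix κ κ S6) (r : ℤ) : Submodule ℂ (κ → ℂ) :=
  (Vc q (r - 3)).map (e.map constantCoeff).mulVecLin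

namespace Clf

variable (Q : Clf 6 ι) {W : S6} {w : Fin 6 → S6} {q : κ → ℤ} {e : Matrix κ κ S6} {t j : ℤ}

theorem p_vac : Q.p t Q.o = t := by rw [p, (Q.vac _).2 rfl, Nat.cast_zero, zero_add]

theorem ev_mem {g : Matrix κ ι S6} (h : g ∈ MM (Q.p t) q j) : Q.ev κ g ∈ Vc q (j + t) :=
  fun k hk => hg_coeff_zero (h k Q.o) (by rw [p_vac]; lia)

theorem ev_lift {y : κ → ℂ} (h : y ∈ Vc q (j + t)) : ∃ g ∈ MM (Q.p t) q j, Q.ev κ g = y := by
  refine ⟨of fun k l => if l = Q.o then C (y k) else 0, fun k l => ?_, funext fun k => by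
    simp [ev_apply]⟩
  rw [of_apply]
  split_ifs with h1
  · by_cases h2 : q k = j + t
    · rw [h1, p_vac, h2, sub_self]
      exact isWeightedHomogeneous_C _ _
    · rw [h k h2, C_0]
      exact hga_zero _
  · exact hga_zero _

theorem ev_bd (g : Matrix κ ι S6) :
    Q.ev κ (e * g + g * Q.K X w) = e.map constantCoeff *ᵥ Q.ev κ g := by
  rw [map_add, ev_mul, ev_mul, ev_K, mulVec_zero, add_zero]

/-- maps from the stabilised residue field -/
theorem hh_equiv (hw : ∀ i, V.Hg 4 (w i)) (hW : w ⬝ᵥ X = W) (hY : IsMF W q e) (t j : ℤ) :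
    Nonempty (HH (Q.p t) (Q.K X w) q e j ≃ₗ[ℂ] HQ (Zc q e (j + t)) (Bc q e (j + t))) := by
  have hG := Q.isMF t hw hW
  have e3 : j + t - 3 = j - 3 + t := by lia
  refine hq_equiv (Q.ev κ) (fun z hz => ⟨Q.ev_mem hz.1, ?_⟩) (fun z hz => ⟨?_, ?_⟩) ?_
  · change e.map constantCoeff *ᵥ _ = 0
    rw [← ev_mul, hz.2, ev_mul, ev_K, mulVec_zero]
  · rintro ⟨y, hy, h⟩
    obtain ⟨g, hg, rfl⟩ := Q.ev_lift (e3 ▸ hy)
    have hb : e * g + g * Q.K X w ∈ BB (Q.p t) (Q.K X w) q e j := ⟨g, hg, rfl⟩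
    obtain ⟨u, hu, -, h1⟩ := Q.factK hw hW hY (sub_mem hz (bb_le_zz hG hY j hb))
      (by rw [map_sub, ev_bd, sub_eq_zero]; exact h.symm)
    rw [← sub_add_cancel z (e * g + g * Q.K X w)]
    exact add_mem ⟨u, hu, h1⟩ hb
  · rintro ⟨g, hg, rfl⟩
    exact ⟨Q.ev κ g, e3 ▸ Q.ev_mem hg, (Q.ev_bd g).symm⟩
  · rintro y ⟨hy, h⟩
    obtain ⟨g, hg, rfl⟩ := Q.ev_lift hy
    have hY' : IsMF W q (-e) := ⟨neg_mem hY.deg, by rw [neg_mul_neg, hY.sq]⟩
    have hb : -e * g + g * Q.K X w ∈ BB (Q.p t) (Q.K X w) q (-e) (j + 3) :=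
      ⟨g, MM_cast hg fun _ _ => by lia, rfl⟩
    obtain ⟨u, hu, h0, h1⟩ := Q.factK hw hW hY' (bb_le_zz hG hY' _ hb) (by
      rw [map_add, Matrix.neg_mul, map_neg, ev_mul, ev_mul, ev_K, mulVec_zero, add_zero,
        neg_eq_zero]
      exact h)
    refine ⟨g - u, ⟨sub_mem (S := Submodule ℂ _) (H := MM (Q.p t) q j) hg
      (MM_cast hu fun _ _ => by lia), ?_⟩, by rw [map_sub, h0, sub_zero, sub_self]; exact zero_mem _⟩
    rw [Matrix.neg_mul, Matrix.neg_mul] at h1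
    rw [Matrix.mul_sub, Matrix.sub_mul, eq_sub_of_add_eq' h1]
    abel

end Clf

end Vale.Agent.P287T.Au
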