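import Vale.Agent.P287T.Au.Nat1

/-!
# The Euler form with the stabilised residue field counts charges (P287 phase 2, leaf NAT)
-/

set_option linter.unusedSectionVars false

open MvPolynomial Matrix Module

noncomputable section

namespace Vale.Agent.P287T.Au

open Vale.Agent.P287T.Cy Vale.Agent.P287Z.O Vale.Agent.P287Z.O.L Vale.Agent.P287Z.T

variable {ι κ : Type} [Fintype ι] [DecidableEq ι] [Fintype κ] [DecidableEq κ]
  {W : S6} {q : κ → ℤ} {e : Matrix κ κ S6}

theorem finrank_Vc (q : κ → ℤ) (r : ℤ) :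
    (finrank ℂ (Vc q r) : ℤ) = ∑ k, if q k = r then 1 else 0 := by
  have h : Function.Bijective
      (LinearMap.funLeft ℂ ℂ (Subtype.val : {k // q k = r} → κ) ∘ₗ (Vc q r).subtype) := by
    refine ⟨(injective_iff_map_eq_zero _).2 fun y hy => Subtype.ext (funext fun k => ?_),
      fun f => ⟨⟨fun k => if h : q k = r then f ⟨k, h⟩ else 0, fun k hk => dif_neg hk⟩,
        funext fun k => dif_pos k.2⟩⟩
    by_cases hk : q k = r
    exacts [congrFun hy ⟨k, hk⟩, y.2 k hk]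
  rw [(LinearEquiv.ofBijective _ h).finrank_eq, finrank_fintype_fun_eq_card, Fintype.card_subtype,
    Finset.card_filter]
  push_cast
  rfl

theorem Bc_le_Vc (he : e ∈ MM q q 3) (r : ℤ) : Bc q e r ≤ Vc q r := by
  rintro _ ⟨y, hy, rfl⟩ k hk
  refine Finset.sum_eq_zero fun m _ => ?_
  by_cases h : q m = r - 3
  · exact mul_eq_zero_of_left (hg_coeff_zero (he k m) (by lia)) _
  · exact mul_eq_zero_of_right _ (hy m h)

theorem Bc_le_Zc (hW : V.Hg 6 W) (hY : IsMF W q e) (r : ℤ) : Bc q e r ≤ Zc q e r := by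
  refine le_inf (Bc_le_Vc hY.deg r) ?_
  rintro _ ⟨y, -, rfl⟩
  change _ *ᵥ (_ *ᵥ y) = 0
  have h0 : constantCoeff W = 0 := hg_coeff_zero hW (by norm_num)
  have h : (e * e).map constantCoeff = 0 := by
    rw [hY.sq]
    ext k l
    rw [map_apply, Matrix.smul_apply, smul_eq_mul, map_mul, h0, zero_mul, Matrix.zero_apply]
  rw [mulVec_mulVec, ← Matrix.map_mul, h, zero_mulVec]

theorem finrank_Bc_add (q : κ → ℤ) (e : Matrix κ κ S6) (r : ℤ) :
    finrank ℂ (Bc q e (r + 3)) + finrank ℂ (Zc q e r) = finrank ℂ (Vc q r) := by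
  rw [← LinearMap.finrank_range_add_finrank_ker
    ((e.map constantCoeff).mulVecLin.domRestrict (Vc q r)), LinearMap.range_domRestrict,
    LinearMap.ker_domRestrict, Bc, add_sub_cancel_right, Zc, ← Submodule.map_comap_subtype,
    Submodule.finrank_map_subtype_eq]

/-- the sign of a charge in the class of `t` modulo `3` -/
def sgn (t r : ℤ) : ℤ := ∑ᶠ k : ℤ, (k.negOnePow : ℤ) * if r = 3 * k + t then 1 else 0

theorem fin_of (q : κ → ℤ) (t : ℤ) {f : ℤ → ℤ} (h : ∀ k, (∀ m, q m ≠ 3 * k + t) → f k = 0) :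
    Function.HasFiniteSupport f := by
  refine (Set.finite_range fun m => (q m - t) / 3).subset fun k hk => ?_
  by_contra hc
  exact hk (h k fun m hm => hc ⟨m, by simp only [hm]; lia⟩)

theorem Clf.eul_eq (Q : Clf 6 ι) {w : Fin 6 → S6} (h6 : V.Hg 6 W) (hw : ∀ i, V.Hg 4 (w i))
    (hW : w ⬝ᵥ X = W) (hY : IsMF W q e) (t : ℤ) :
    eul (Q.p t) (Q.K X w) q e = ∑ m, sgn t (q m) := by
  let β : ℤ → ℤ := fun k => (k.negOnePow : ℤ) * finrank ℂ (Bc q e (3 * k + t))
  let γ : ℤ → ℤ := fun k => ∑ m, (k.negOnePow : ℤ) * if q m = 3 * k + t then 1 else 0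
  have h1 : ∀ k : ℤ, (k.negOnePow : ℤ) * finrank ℂ (HH (Q.p t) (Q.K X w) q e (3 * k)) =
      γ k + (β (Equiv.addRight 1 k) - β k) := fun k => by
    obtain ⟨φ⟩ := Q.hh_equiv hw hW hY t (3 * k)
    have a1 := finrank_hq (Bc_le_Zc h6 hY (3 * k + t))
    have a2 := finrank_Bc_add q e (3 * k + t)
    have a3 := finrank_Vc q (3 * k + t)
    simp only [β, γ, Equiv.coe_addRight, Int.negOnePow_succ, Units.val_neg]
    rw [φ.finrank_eq, ← Finset.mul_sum, ← a3, ← a2, ← a1,
      show 3 * (k + 1) + t = 3 * k + t + 3 by ring]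
    push_cast
    ring
  have hβ : Function.HasFiniteSupport β := fin_of q t fun k hk => by
    have : Bc q e (3 * k + t) = ⊥ :=
      eq_bot_iff.2 fun y hy => funext fun m => Bc_le_Vc hY.deg _ hy m (hk m)
    simp only [β]
    rw [this, finrank_bot, Nat.cast_zero, mul_zero]
  have hβ' : Function.HasFiniteSupport fun k => β (Equiv.addRight 1 k) :=
    hβ.preimage (Equiv.addRight (1 : ℤ)).injective.injOn
  have hγ : Function.HasFiniteSupport γ := fin_of q t fun k hk =>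
    Finset.sum_eq_zero fun m _ => by rw [if_neg (hk m), mul_zero]
  rw [eul, finsum_congr h1, finsum_add_distrib (g := fun k => β (Equiv.addRight 1 k) - β k) hγ
    (hβ'.sub hβ), finsum_sub_distrib hβ' hβ, finsum_comp_equiv, sub_self, add_zero]
  exact finsum_sum_comm _ _ fun m _ => fin_of q t fun k hk => by rw [if_neg (hk m), mul_zero]

theorem sgn_self (t k : ℤ) : sgn t (3 * k + t) = k.negOnePow := by
  rw [sgn, finsum_eq_single _ k fun l hl => by rw [if_neg (by lia), mul_zero], if_pos rfl, mul_one]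

theorem sgn_of_ne {t r : ℤ} (h : ∀ k, r ≠ 3 * k + t) : sgn t r = 0 :=
  finsum_eq_zero_of_forall_eq_zero fun k => by rw [if_neg (h k), mul_zero]

theorem zeta_pow (r : ℤ) : (⟨1 / 2, -(√3 / 2)⟩ : ℂ) ^ r =
    sgn 0 r + sgn 1 r * (⟨1 / 2, -(√3 / 2)⟩ : ℂ) + sgn 2 r * (⟨1 / 2, -(√3 / 2)⟩ : ℂ) ^ 2 := by
  have h3 : (⟨1 / 2, -(√3 / 2)⟩ : ℂ) ^ (3 : ℤ) = -1 := by
    have h := Real.mul_self_sqrt (show (0 : ℝ) ≤ 3 by norm_num)
    rw [zpow_ofNat, pow_succ, pow_two]
    refine Complex.ext ?_ ?_ <;> simp only [Complex.mul_re, Complex.mul_im, Complex.neg_re,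
      Complex.neg_im, Complex.one_re, Complex.one_im]
    · linear_combination (-3 / 8) * h
    · linear_combination (√3 / 8) * h
  generalize (⟨1 / 2, -(√3 / 2)⟩ : ℂ) = z at h3 ⊢
  have h0 : z ≠ 0 := fun h => by simp [h] at h3
  have key : ∀ k t : ℤ, z ^ (3 * k + t) = (k.negOnePow : ℤ) * z ^ t := fun k t => by
    rw [zpow_add₀ h0, _root_.zpow_mul, h3]
    rcases Int.even_or_odd k with h | h
    · rw [h.neg_one_zpow, Int.negOnePow_even k h, Units.val_one, Int.cast_one]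
    · rw [h.neg_one_zpow, Int.negOnePow_odd k h, Units.val_neg, Units.val_one, Int.cast_neg,
        Int.cast_one]
  obtain ⟨k, rfl | rfl | rfl⟩ : ∃ k, r = 3 * k + 0 ∨ r = 3 * k + 1 ∨ r = 3 * k + 2 :=
    ⟨r / 3, by lia⟩
  · rw [key, sgn_self, sgn_of_ne (t := 1) fun _ => by lia, sgn_of_ne (t := 2) fun _ => by lia]
    simp
  · rw [key, sgn_self, sgn_of_ne (t := 0) fun _ => by lia, sgn_of_ne (t := 2) fun _ => by lia]
    simp
  · rw [key, sgn_self, sgn_of_ne (t := 0) fun _ => by lia, sgn_of_ne (t := 1) fun _ => by lia]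
    simp [zpow_ofNat]

/-- an object of nonzero charge is detected by a twist of the stabilised residue field -/
theorem Clf.exists_eul (Q : Clf 6 ι) {w : Fin 6 → S6} (h6 : V.Hg 6 W) (hw : ∀ i, V.Hg 4 (w i))
    (hW : w ⬝ᵥ X = W) (hY : IsMF W q e) (h : chg q ≠ 0) : ∃ t, eul (Q.p t) (Q.K X w) q e ≠ 0 := by
  by_contra! hc
  have h1 := fun t => congrArg (Int.cast : ℤ → ℂ) ((Q.eul_eq h6 hw hW hY t).symm.trans (hc t))
  simp only [Int.cast_sum, Int.cast_zero] at h1
  apply h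
  simp only [chg, zeta_pow, Finset.sum_add_distrib, ← Finset.sum_mul, h1, zero_mul, add_zero]

theorem eul_symm {p : ι → ℤ} {d : Matrix ι ι S6} (hW : V.Hg 6 W) (hs : Sm W) (hX : IsMF W p d)
    (hY : IsMF W q e) : eul p d q e = eul q e p d := by
  rw [eul, eul, ← finsum_comp_equiv (Equiv.subLeft 2)]
  refine finsum_congr fun k => ?_
  rw [Equiv.subLeft_apply, serre hW hs hX hY (show 3 * (2 - k) + 3 * k = 6 by ring),
    Int.negOnePow_sub, Int.negOnePow_even 2 even_two, one_mul]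

end Vale.Agent.P287T.Au
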