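import Vale.Agent.P287T.G3.Br2
import Vale.Agent.P287T.Cy.Eq

/-!
# Padding matrix factorizations by trivial ones
-/

open Vale.Agent.P294 Matrix MvPolynomial CategoryTheory

namespace Vale.Agent.P287T.Au

open Vale.Agent.P287T.Cy Vale.Agent.P287T.G3 Vale.Agent.P287Z.O.L

/-! ### counting charges -/

section count

variable {ι κ : Type} [Fintype ι] [Fintype κ]

/-- the number of generators of every charge -/
noncomputable def cnt (p : ι → ℤ) : ℤ →₀ ℤ := ∑ i, Finsupp.single (p i) 1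

theorem cnt_apply (p : ι → ℤ) (n : ℤ) : cnt p n = Fintype.card {i // p i = n} := by
  rw [cnt, Finsupp.finsetSum_apply, Fintype.card_subtype, Finset.card_filter, Nat.cast_sum]
  refine Finset.sum_congr rfl fun i _ => ?_
  rw [Finsupp.single_apply]
  split_ifs <;> rfl

theorem exists_equiv_of_cnt {p : ι → ℤ} {q : κ → ℤ} (h : cnt p = cnt q) :
    ∃ e : ι ≃ κ, ∀ i, q (e i) = p i := by
  have h1 : ∀ n, Fintype.card {i // p i = n} = Fintype.card {i // q i = n} := fun n => by
    have := congrArg (· n) h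
    simp only [cnt_apply] at this
    exact_mod_cast this
  exact ⟨Equiv.ofFiberEquiv fun n => Fintype.equivOfCardEq (h1 n),
    fun i => Equiv.ofFiberEquiv_map _ i⟩

theorem cnt_elim (p : ι → ℤ) (q : κ → ℤ) : cnt (Sum.elim p q) = cnt p + cnt q :=
  Fintype.sum_sum_type _

/-- the charges of the trivial factorization -/
def pdz (r : κ → ℤ) : κ ⊕ κ → ℤ := Sum.elim r fun i => r i + 3

/-- the count of a trivial factorization of rank one -/
noncomputable def tv (n : ℤ) : ℤ →₀ ℤ := Finsupp.single n 1 + Finsupp.single (n + 3) 1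

theorem cnt_pdz (r : κ → ℤ) : cnt (pdz r) = ∑ i, tv (r i) := by
  rw [pdz, cnt_elim, cnt, cnt, ← Finset.sum_add_distrib]
  rfl

/-- counts of trivial factorizations -/
noncomputable def Tv : AddSubmonoid (ℤ →₀ ℤ) := AddSubmonoid.closure (Set.range tv)

theorem exists_of_Tv {f : ℤ →₀ ℤ} (h : f ∈ Tv) :
    ∃ (n : ℕ) (r : Fin n → ℤ), f = cnt (pdz r) := by
  induction h using AddSubmonoid.closure_induction with
  | mem x hx =>
    obtain ⟨n, rfl⟩ := hx
    exact ⟨1, fun _ => n, by rw [cnt_pdz, Fin.sum_univ_one]⟩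
  | zero => exact ⟨0, Fin.elim0, by rw [cnt_pdz, Fin.sum_univ_zero]⟩
  | add x y _ _ hx hy =>
    obtain ⟨n, r, rfl⟩ := hx
    obtain ⟨m, s, rfl⟩ := hy
    refine ⟨n + m, Fin.append r s, ?_⟩
    rw [cnt_pdz, cnt_pdz, cnt_pdz, Fin.sum_univ_add]
    simp only [Fin.append_left, Fin.append_right]

/-- differences of counts of trivial factorizations -/
noncomputable def Tg : AddSubgroup (ℤ →₀ ℤ) where
  carrier := {f | ∃ a ∈ Tv, ∃ b ∈ Tv, f = a - b}
  zero_mem' := ⟨0, zero_mem _, 0, zero_mem _, (sub_self _).symm⟩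
  add_mem' := by
    rintro _ _ ⟨a, ha, b, hb, rfl⟩ ⟨c, hc, d, hd, rfl⟩
    exact ⟨a + c, add_mem ha hc, b + d, add_mem hb hd, by abel⟩
  neg_mem' := by
    rintro _ ⟨a, ha, b, hb, rfl⟩
    exact ⟨b, hb, a, ha, by abel⟩

theorem tv_mem (n : ℤ) : tv n ∈ Tg :=
  ⟨tv n, AddSubmonoid.subset_closure ⟨n, rfl⟩, 0, zero_mem _, (sub_zero _).symm⟩

/-- the charge of one generator -/
noncomputable def zc (n : ℤ) : ℂ := ray (-(n : ℝ) / 3)

theorem zc_add_three (n : ℤ) : zc (n + 3) = -zc n := by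
  have h : ray (-1) = -1 := by
    rw [ray_eq, mul_neg, mul_one, Real.cos_neg, Real.sin_neg, Real.cos_pi, Real.sin_pi, neg_zero]
    exact Complex.ext (by simp) (by simp)
  rw [zc, zc, show -((n + 3 : ℤ) : ℝ) / 3 = -(n : ℝ) / 3 + -1 by push_cast; ring, ray_add, h,
    mul_neg_one]

/-- the two invariants of a count -/
noncomputable def inv2 : (ℤ →₀ ℤ) →+ ℂ × ℤ :=
  Finsupp.liftAddHom fun n => zmultiplesHom _ (zc n, G3.sg n)

theorem inv2_single (n a : ℤ) : inv2 (Finsupp.single n a) = a • (zc n, G3.sg n) := by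
  rw [inv2, Finsupp.liftAddHom_apply_single, zmultiplesHom_apply]

theorem inv2_tv (n : ℤ) : inv2 (tv n) = 0 := by
  have h3 : G3.sg 3 = -1 := rfl
  rw [tv, map_add, inv2_single, inv2_single, one_smul, one_smul, zc_add_three, G3.sg_add, h3,
    mul_neg_one, Prod.mk_add_mk, add_neg_cancel, add_neg_cancel]
  rfl

theorem inv2_Tg {f : ℤ →₀ ℤ} (h : f ∈ Tg) : inv2 f = 0 := by
  have h1 : ∀ a ∈ Tv, inv2 a = 0 := fun a ha => by
    induction ha using AddSubmonoid.closure_induction with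
    | mem x hx =>
      obtain ⟨n, rfl⟩ := hx
      exact inv2_tv n
    | zero => exact map_zero _
    | add x y _ _ hx hy => rw [map_add, hx, hy, add_zero]
  obtain ⟨a, ha, b, hb, rfl⟩ := h
  rw [map_sub, h1 a ha, h1 b hb, sub_self]

theorem nf_single (r : ℤ) (k : ℤ) :
    ∃ a : ℤ, Finsupp.single (r + 3 * k) (1 : ℤ) - Finsupp.single r a ∈ Tg := by
  induction k using Int.induction_on with
  | zero => exact ⟨1, by rw [mul_zero, add_zero, sub_self]; exact zero_mem _⟩
  | succ k ih =>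
    obtain ⟨a, ha⟩ := ih
    refine ⟨-a, ?_⟩
    have := sub_mem (tv_mem (r + 3 * k)) ha
    rw [tv, show r + 3 * (k : ℤ) + 3 = r + 3 * (k + 1) by ring] at this
    rw [Finsupp.single_neg]
    convert this using 1
    abel
  | pred k ih =>
    obtain ⟨a, ha⟩ := ih
    refine ⟨-a, ?_⟩
    have := sub_mem (tv_mem (r + 3 * (-k - 1))) ha
    rw [tv, show r + 3 * (-(k : ℤ) - 1) + 3 = r + 3 * -k by ring] at this
    rw [Finsupp.single_neg]
    convert this using 1
    abel

theorem nf (f : ℤ →₀ ℤ) : ∃ a b c : ℤ,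
    f - (Finsupp.single 0 a + Finsupp.single 1 b + Finsupp.single 2 c) ∈ Tg := by
  induction f using Finsupp.induction_linear with
  | zero => exact ⟨0, 0, 0, by simp only [Finsupp.single_zero, add_zero, sub_self, zero_mem]⟩
  | add f g hf hg =>
    obtain ⟨a, b, c, h⟩ := hf
    obtain ⟨a', b', c', h'⟩ := hg
    refine ⟨a + a', b + b', c + c', ?_⟩
    have := add_mem h h'
    rw [Finsupp.single_add, Finsupp.single_add, Finsupp.single_add]
    convert this using 1
    abel
  | single n m =>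
    obtain ⟨a, ha⟩ := nf_single (n % 3) (n / 3)
    rw [Int.emod_add_mul_ediv] at ha
    have h := zsmul_mem ha m
    rw [smul_sub, Finsupp.smul_single, Finsupp.smul_single, smul_eq_mul, mul_one] at h
    have h3 : n % 3 = 0 ∨ n % 3 = 1 ∨ n % 3 = 2 := by omega
    rcases h3 with e | e | e <;> rw [e] at h
    · exact ⟨_, 0, 0, by simpa only [Finsupp.single_zero, add_zero, zero_add] using h⟩
    · exact ⟨0, _, 0, by simpa only [Finsupp.single_zero, add_zero, zero_add] using h⟩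
    · exact ⟨0, 0, _, by simpa only [Finsupp.single_zero, add_zero, zero_add] using h⟩

theorem mem_Tg {f : ℤ →₀ ℤ} (h : inv2 f = 0) : f ∈ Tg := by
  obtain ⟨a, b, c, h1⟩ := nf f
  have h2 := inv2_Tg h1
  rw [map_sub, h, zero_sub, neg_eq_zero, map_add, map_add, inv2_single, inv2_single,
    inv2_single] at h2
  have z0 : zc 0 = 1 := by
    rw [zc, Int.cast_zero, neg_zero, zero_div, ray_zero]
  have z1 : zc 1 = ⟨1 / 2, -(√3 / 2)⟩ := by
    rw [zc, ray_eq, show Real.pi * (-((1 : ℤ) : ℝ) / 3) = -(Real.pi / 3) by push_cast; ring,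
      Real.cos_neg, Real.sin_neg, Real.cos_pi_div_three, Real.sin_pi_div_three]
  have z2 : zc 2 = ⟨-(1 / 2), -(√3 / 2)⟩ := by
    rw [zc, ray_eq, show Real.pi * (-((2 : ℤ) : ℝ) / 3) = -(Real.pi - Real.pi / 3) by
      push_cast; ring, Real.cos_neg, Real.sin_neg, Real.cos_pi_sub, Real.sin_pi_sub,
      Real.cos_pi_div_three, Real.sin_pi_div_three]
  have s0 : G3.sg 0 = 1 := rfl
  have s1 : G3.sg 1 = -1 := rfl
  have s2 : G3.sg 2 = 1 := rfl
  rw [z0, z1, z2, s0, s1, s2, Prod.smul_mk, Prod.smul_mk, Prod.smul_mk, Prod.mk_add_mk,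
    Prod.mk_add_mk, Prod.mk_eq_zero] at h2
  obtain ⟨e0, e3⟩ := h2
  have e1 := congrArg Complex.re e0
  have e2 := congrArg Complex.im e0
  simp only [zsmul_eq_mul, Complex.add_re, Complex.add_im, Complex.mul_re, Complex.mul_im,
    Complex.intCast_re, Complex.intCast_im, Complex.one_re, Complex.one_im, Complex.zero_re,
    Complex.zero_im, Int.cast_id] at e1 e2 e3
  have h3 : (0 : ℝ) < √3 := Real.sqrt_pos.2 (by norm_num)
  have f1 : (2 * a + b - c : ℤ) = 0 := by
    have : ((2 * a + b - c : ℤ) : ℝ) = 0 := by push_cast; linarith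
    exact_mod_cast this
  have f2 : (b + c : ℤ) = 0 := by
    have : ((b + c : ℤ) : ℝ) * √3 = 0 := by push_cast; linarith
    exact_mod_cast (mul_eq_zero.1 this).resolve_right h3.ne'
  obtain rfl : a = 0 := by omega
  obtain rfl : b = 0 := by omega
  obtain rfl : c = 0 := by omega
  simpa only [Finsupp.single_zero, add_zero, sub_zero] using h1

theorem inv2_cnt (p : ι → ℤ) : inv2 (cnt p) = (∑ i, zc (p i), ∑ i, G3.sg (p i)) := by
  rw [cnt, map_sum, prod_mk_sum]
  exact Finset.sum_congr rfl fun i _ => (inv2_single _ _).trans (one_smul _ _)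

end count

/-- the numbers of even and odd generators agree -/
theorem sum_sg {W : S6} (hW : W ≠ 0) (E : HM W) : ∑ i, G3.sg (E.pz i) = 0 := by
  have h1 := sgM_d 1 E.isMF.deg
  have s1 : G3.sg 1 = -1 := rfl
  have h2 : (sgM E.pz 1 * E.dz * E.dz).trace = -(sgM E.pz 1 * E.dz * E.dz).trace := by
    conv_lhs => rw [h1, s1, neg_one_zsmul, Matrix.neg_mul, Matrix.trace_neg, Matrix.mul_assoc,
      Matrix.trace_mul_comm]
  rw [Matrix.mul_assoc, E.isMF.sq, Matrix.mul_smul, Matrix.mul_one, Matrix.trace_smul,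
    smul_eq_mul, sgM, Matrix.trace_diagonal, ← Int.cast_sum, eq_neg_iff_add_eq_zero, ← two_mul]
    at h2
  have h3 := (mul_eq_zero.1 ((mul_eq_zero.1 h2).resolve_left two_ne_zero)).resolve_left hW
  simpa only [one_mul, Int.cast_eq_zero] using h3

theorem cnt_sub_mem {W : S6} (hW : W ≠ 0) {E F : HM W} (h : Zf E = Zf F) :
    cnt E.pz - cnt F.pz ∈ Tg := by
  refine mem_Tg ?_
  rw [map_sub, inv2_cnt, inv2_cnt, sum_sg hW, sum_sg hW, sub_eq_zero]
  exact congrArg (·, (0 : ℤ)) h

/-! ### the padding -/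

/-- the shape `P` is the shape `p` together with a trivial factorization -/
structure Pad (W : S6) {ι κ : Type} [Fintype ι] [Fintype κ] [DecidableEq ι] [DecidableEq κ]
    (p : ι → ℤ) (P : κ → ℤ) where
  A : Matrix κ ι S6
  B : Matrix ι κ S6
  T : Matrix κ κ S6
  K : Matrix κ κ S6
  hA : A ∈ MM p P 0
  hB : B ∈ MM P p 0
  hT : T ∈ MM P P 3
  hK : K ∈ MM P P (-3)
  BA : B * A = 1
  TA : T * A = 0
  BT : B * T = 0
  KA : K * A = 0
  BK : B * K = 0
  TT : T * T = W • (1 - A * B)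
  TK : T * K + K * T = 1 - A * B

variable {W : S6} {ι κ μ : Type} [Fintype ι] [Fintype κ] [Fintype μ] [DecidableEq ι]
  [DecidableEq κ] [DecidableEq μ] {p : ι → ℤ} {P : κ → ℤ}

omit [Fintype κ] in
theorem std_AB : (1 : Matrix (ι ⊕ κ) (ι ⊕ κ) S6) - fromRows (1 : Matrix ι ι S6) 0 * fromCols 1 0 =
    fromBlocks 0 0 0 1 := by
  rw [fromRows_mul_fromCols, ← fromBlocks_one, sub_eq_iff_eq_add, fromBlocks_add]
  simp only [Matrix.mul_zero, add_zero, zero_add, Matrix.mul_one]

/-- the standard padding -/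
noncomputable def Pad.std (hW : P287Z.O.V.Hg 6 W) (p : ι → ℤ) (r : μ → ℤ) :
    Pad W p (Sum.elim p (pdz r)) where
  A := fromRows 1 0
  B := fromCols 1 0
  T := fromBlocks 0 0 0 (fromBlocks 0 (W • 1) 1 0)
  K := fromBlocks 0 0 0 (fromBlocks 0 1 0 0)
  hA i l := by
    rcases i with i | i
    · exact MM_one p i l
    · exact hga_zero _
  hB i l := by
    rcases l with l | l
    · exact MM_one p i l
    · exact hga_zero _
  hT i l := by
    rcases i with i | i | i <;> rcases l with l | l | l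
    any_goals exact hga_zero _
    · change P287Z.O.V.Hg (3 + (r l + 3) - r i) (W * (1 : Matrix μ μ S6) i l)
      exact hga_mul' hW (MM_one r i l) (by ring)
    · change P287Z.O.V.Hg (3 + r l - (r i + 3)) ((1 : Matrix μ μ S6) i l)
      rw [show 3 + r l - (r i + 3) = 0 + r l - r i by ring]
      exact MM_one r i l
  hK i l := by
    rcases i with i | i | i <;> rcases l with l | l | l
    any_goals exact hga_zero _
    change P287Z.O.V.Hg (-3 + (r l + 3) - r i) ((1 : Matrix μ μ S6) i l)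
    rw [show -3 + (r l + 3) - r i = 0 + r l - r i by ring]
    exact MM_one r i l
  BA := by rw [fromCols_mul_fromRows, Matrix.mul_one, Matrix.mul_zero, add_zero]
  TA := by
    rw [fromBlocks_mul_fromRows]
    simp only [Matrix.mul_zero, Matrix.zero_mul, add_zero, fromRows_zero]
  BT := by
    rw [fromCols_mul_fromBlocks]
    simp only [Matrix.mul_zero, Matrix.zero_mul, add_zero, fromCols_zero]
  KA := by
    rw [fromBlocks_mul_fromRows]
    simp only [Matrix.mul_zero, Matrix.zero_mul, add_zero, fromRows_zero]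
  BK := by
    rw [fromCols_mul_fromBlocks]
    simp only [Matrix.mul_zero, Matrix.zero_mul, add_zero, fromCols_zero]
  TT := by
    rw [std_AB, fromBlocks_smul, ← fromBlocks_one (l := μ) (m := μ), fromBlocks_smul]
    simp only [fromBlocks_multiply, Matrix.mul_zero, Matrix.zero_mul, add_zero, zero_add,
      smul_zero, Matrix.mul_one, Matrix.one_mul]
  TK := by
    rw [std_AB, ← fromBlocks_one (l := μ) (m := μ)]
    simp only [fromBlocks_multiply, Matrix.mul_zero, Matrix.zero_mul, add_zero, zero_add,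
      Matrix.mul_one, fromBlocks_add]

/-- transport along a bijection of the bases -/
noncomputable def Pad.re {P' : μ → ℤ} (S : Pad W p P) (e : μ ≃ κ) (h : ∀ i, P (e i) = P' i) :
    Pad W p P' where
  A := S.A.submatrix e id
  B := S.B.submatrix id e
  T := S.T.submatrix e e
  K := S.K.submatrix e e
  hA i l := h i ▸ S.hA (e i) l
  hB i l := h l ▸ S.hB i (e l)
  hT i l := h i ▸ h l ▸ S.hT (e i) (e l)
  hK i l := h i ▸ h l ▸ S.hK (e i) (e l)
  BA := by rw [submatrix_mul_equiv, S.BA, submatrix_id_id]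
  TA := by rw [submatrix_mul_equiv, S.TA, submatrix_zero, Pi.zero_apply, Pi.zero_apply]
  BT := by rw [submatrix_mul_equiv, S.BT, submatrix_zero, Pi.zero_apply, Pi.zero_apply]
  KA := by rw [submatrix_mul_equiv, S.KA, submatrix_zero, Pi.zero_apply, Pi.zero_apply]
  BK := by rw [submatrix_mul_equiv, S.BK, submatrix_zero, Pi.zero_apply, Pi.zero_apply]
  TT := by
    rw [submatrix_mul_equiv, S.TT, ← submatrix_one_equiv e]
    rfl
  TK := by
    rw [submatrix_mul_equiv, submatrix_mul_equiv, ← submatrix_one_equiv e]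
    exact congrArg (fun M : Matrix κ κ S6 => M.submatrix e e) S.TK

theorem exists_pad (hW : P287Z.O.V.Hg 6 W) (h : cnt P - cnt p ∈ Tv) : Nonempty (Pad W p P) := by
  obtain ⟨n, r, hr⟩ := exists_of_Tv h
  obtain ⟨e, he⟩ := exists_equiv_of_cnt (p := P) (q := Sum.elim p (pdz r))
    (by rw [cnt_elim, ← hr, add_sub_cancel])
  exact ⟨(Pad.std hW p r).re e he⟩

/-- **one shape for finitely many objects of the same charge** -/
theorem exists_shape (hW : P287Z.O.V.Hg 6 W) (h0 : W ≠ 0) {J : Type} [Finite J] (E : J → HM W) (F : HM W)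
    (h : ∀ j, Zf (E j) = Zf F) :
    ∃ (n : ℕ) (P : F.ι ⊕ (Fin n ⊕ Fin n) → ℤ), ∀ j, Nonempty (Pad W (E j).pz P) := by
  classical
  have := Fintype.ofFinite J
  choose a ha b hb hab using fun j => cnt_sub_mem h0 (h j)
  obtain ⟨n, r, hr⟩ := exists_of_Tv (sum_mem fun j (_ : j ∈ Finset.univ) => ha j)
  refine ⟨n, Sum.elim F.pz (pdz r), fun j => exists_pad hW ?_⟩
  have e : cnt F.pz + ∑ i, a i - cnt (E j).pz = b j + ∑ i ∈ Finset.univ.erase j, a i := by
    rw [← Finset.add_sum_erase _ _ (Finset.mem_univ j), sub_eq_iff_eq_add.1 (hab j)]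
    abel
  rw [cnt_elim, ← hr, e]
  exact add_mem (hb j) (sum_mem fun i _ => ha i)

namespace Pad

variable (S : Pad W p P) {d ξ : Matrix ι ι S6}

/-- the padded differential -/
noncomputable def pd (d : Matrix ι ι S6) : Matrix κ κ S6 := S.A * d * S.B + S.T

theorem lin_mem {j : ℤ} (h : ξ ∈ MM p p j) : S.A * ξ * S.B ∈ MM P P j :=
  MM_mul (MM_mul S.hA h (add_zero j)) S.hB (zero_add j)

theorem pd_mul_A (d : Matrix ι ι S6) : S.pd d * S.A = S.A * d := by
  rw [pd, Matrix.add_mul, Matrix.mul_assoc, S.BA, S.TA, Matrix.mul_one, add_zero]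

theorem B_mul_pd (d : Matrix ι ι S6) : S.B * S.pd d = d * S.B := by
  rw [pd, Matrix.mul_add, ← Matrix.mul_assoc, ← Matrix.mul_assoc, S.BA, S.BT, Matrix.one_mul,
    add_zero]

theorem isMF (h : IsMF W p d) : IsMF W P (S.pd d) := by
  refine ⟨add_mem (S.lin_mem h.deg) S.hT, ?_⟩
  have h1 : S.T * S.pd d = W • (1 - S.A * S.B) := by
    rw [pd, Matrix.mul_add, ← Matrix.mul_assoc, ← Matrix.mul_assoc, S.TA, Matrix.zero_mul,
      Matrix.zero_mul, zero_add, S.TT]
  conv_lhs => rw [show S.pd d * S.pd d = (S.A * d * S.B + S.T) * S.pd d from rfl]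
  rw [Matrix.add_mul, h1, Matrix.mul_assoc, S.B_mul_pd, Matrix.mul_assoc, ← Matrix.mul_assoc d,
    h.sq, Matrix.smul_mul, Matrix.mul_smul, Matrix.one_mul, ← smul_add, add_sub_cancel]

theorem he (d : Matrix ι ι S6) : HE p d P (S.pd d) := by
  refine ⟨S.A, ⟨S.hA, S.pd_mul_A d⟩, S.B, ⟨S.hB, (S.B_mul_pd d).symm⟩,
    by rw [S.BA, sub_self]; exact zero_mem _, -S.K, neg_mem S.hK, ?_⟩
  rw [Matrix.mul_neg, Matrix.neg_mul, pd, Matrix.add_mul, Matrix.mul_add, Matrix.mul_assoc _ S.B,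
    S.BK, ← Matrix.mul_assoc S.K, ← Matrix.mul_assoc S.K, S.KA, Matrix.zero_mul, Matrix.zero_mul,
    Matrix.mul_zero, zero_add, zero_add, ← neg_add, S.TK, neg_sub]

theorem triv {h : Matrix κ κ S6} (hh : h ∈ MM P P 0)
    (e : S.A * ξ * S.B = h * S.pd d - S.pd d * h) : ξ ∈ BB p d p (-d) 3 := by
  refine ⟨S.B * h * S.A, MM_mul (MM_mul S.hB hh (add_zero 0)) S.hA (by norm_num), ?_⟩
  have := congrArg (fun M => S.B * M * S.A) e
  simp only [Matrix.mul_sub, Matrix.sub_mul, Matrix.mul_assoc, S.BA, S.pd_mul_A, Matrix.mul_one]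
    at this
  rw [← Matrix.mul_assoc S.B S.A, S.BA, Matrix.one_mul, ← Matrix.mul_assoc S.B (S.pd d),
    S.B_mul_pd] at this
  rw [this, Matrix.neg_mul]
  simp only [Matrix.mul_assoc]
  abel

end Pad

theorem iso_iff_he (E F : HM W) : Nonempty (E ≅ F) ↔ HE E.pz E.dz F.pz F.dz := iso_iff E F

end Vale.Agent.P287T.Au
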