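import Vale.Agent.P287T.Au.Pad
import Vale.Agent.P287T.Au.Defs
import Vale.Agent.P287T.Df.ModD
import Vale.Agent.P287T.Dt.Iso
import Mathlib.Geometry.Manifold.ContMDiff.Atlas
import Mathlib.Geometry.Manifold.ContMDiff.NormedSpace

/-!
# From the moduli surface to a connected surface of conjugacy classes of one shape
-/

open Vale.Agent.P294 MvPolynomial CategoryTheory Filter Topology Module Set
open scoped Manifold ContDiff

namespace Vale.Agent.P287T.Au

open Vale.Agent.P287T.Cy Vale.Agent.P287T.G3 Vale.Agent.P287T.Df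

section chart

variable {V : Type} [NormedAddCommGroup V] [NormedSpace ℂ V] {M : Type} [TopologicalSpace M]
  [ChartedSpace V M] [IsManifold 𝓘(ℂ, V) ω M]

theorem tr_an {x y w : M} (hx : w ∈ (chartAt V x).source) (hy : w ∈ (chartAt V y).source) :
    AnalyticAt ℂ (chartAt V y ∘ (chartAt V x).symm) (chartAt V x w) := by
  have h1 : ContMDiffAt 𝓘(ℂ, V) 𝓘(ℂ, V) ω (chartAt V x).symm (chartAt V x w) :=
    (contMDiffOn_chart_symm (n := ω) (I := 𝓘(ℂ, V)) (x := x)).contMDiffAt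
      ((chartAt V x).open_target.mem_nhds ((chartAt V x).map_source hx))
  have h2 : ContMDiffAt 𝓘(ℂ, V) 𝓘(ℂ, V) ω (chartAt V y) ((chartAt V x).symm (chartAt V x w)) := by
    rw [(chartAt V x).left_inv hx]
    exact (contMDiffOn_chart (n := ω) (I := 𝓘(ℂ, V)) (x := y)).contMDiffAt
      ((chartAt V y).open_source.mem_nhds hy)
  exact (h2.comp _ h1).contDiffAt.analyticAt

omit [NormedSpace ℂ V] [IsManifold 𝓘(ℂ, V) ω M] in
theorem tr_ev {x y w : M} (hx : w ∈ (chartAt V x).source) (hy : w ∈ (chartAt V y).source) :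
    ∀ᶠ z in 𝓝 (chartAt V x w), z ∈ (chartAt V x).target ∧
      (chartAt V x).symm z ∈ (chartAt V y).source := by
  have h := (chartAt V x).map_source hx
  refine ((chartAt V x).open_target.eventually_mem h).and
    (((chartAt V x).continuousAt_symm h).eventually ((chartAt V y).open_source.mem_nhds ?_))
  rwa [(chartAt V x).left_inv hx]

theorem tr_inj {x y w : M} (hx : w ∈ (chartAt V x).source) (hy : w ∈ (chartAt V y).source)
    (v : V) (h : fderiv ℂ (chartAt V y ∘ (chartAt V x).symm) (chartAt V x w) v = 0) : v = 0 := by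
  have h1 := (tr_an hx hy).differentiableAt.hasFDerivAt
  have h2 := (tr_an hy hx).differentiableAt.hasFDerivAt
  have e : chartAt V y w = (chartAt V y ∘ (chartAt V x).symm) (chartAt V x w) := by
    rw [Function.comp_apply, (chartAt V x).left_inv hx]
  rw [e] at h2
  have h3 := (h2.comp _ h1).congr_of_eventuallyEq (f₁ := id) (by
    filter_upwards [tr_ev hx hy] with z hz
    rw [Function.comp_apply, Function.comp_apply, Function.comp_apply,
      (chartAt V y).left_inv hz.2, (chartAt V x).right_inv hz.1, id])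
  have h4 := congrArg (· v) (h3.unique (hasFDerivAt_id _))
  simpa only [ContinuousLinearMap.comp_apply, h, map_zero, ContinuousLinearMap.id_apply] using
    h4.symm

end chart

variable {W : S6} {Q : HM W → Prop}

/-- a linear map between finite-dimensional spaces is continuous -/
noncomputable def toL1 {E F : Type} [NormedAddCommGroup E] [NormedSpace ℂ E]
    [FiniteDimensional ℂ E] [NormedAddCommGroup F] [NormedSpace ℂ F] (B : E →ₗ[ℂ] F) :
    E →L[ℂ] F := LinearMap.toContinuousLinearMap B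

theorem aff_der {V E F : Type} [NormedAddCommGroup V] [NormedSpace ℂ V] [NormedAddCommGroup E]
    [NormedSpace ℂ E] [NormedAddCommGroup F] [NormedSpace ℂ F] (L : E →L[ℂ] F) (c : F)
    {u : V → E} {τ : V → V} {a b : V} (h1 : AnalyticAt ℂ τ a) (e : τ a = b)
    (h2 : AnalyticAt ℂ u b) : AnalyticAt ℂ (fun z => L (u (τ z)) + c) a ∧
      ∀ v, fderiv ℂ (fun z => L (u (τ z)) + c) a v = L (fderiv ℂ u b (fderiv ℂ τ a v)) := by
  subst e
  refine ⟨((L.analyticAt _).comp (h2.comp h1)).add analyticAt_const, fun v => ?_⟩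
  exact congrArg (· v) ((L.hasFDerivAt.comp _ (h2.differentiableAt.hasFDerivAt.comp _
    h1.differentiableAt.hasFDerivAt)).add_const c).fderiv

section

variable {ι κ : Type} [Fintype ι] [Fintype κ] [DecidableEq ι] [DecidableEq κ] {p : ι → ℤ}
  {P : κ → ℤ} (S : Pad W p P)

/-- the linear part of the padding -/
noncomputable def Pad.lin : MM p p 3 →L[ℂ] MM P P 3 :=
  toL1
    { toFun := fun g => ⟨S.A * g.1 * S.B, S.lin_mem g.2⟩
      map_add' := fun _ _ => Subtype.ext (by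
        simp only [Submodule.coe_add, Matrix.mul_add, Matrix.add_mul])
      map_smul' := fun _ _ => Subtype.ext (by
        simp only [Submodule.coe_smul, Matrix.mul_smul, Matrix.smul_mul, RingHom.id_apply]) }

theorem Pad.lin_val (g : MM p p 3) : (S.lin g).1 = S.A * g.1 * S.B := rfl

/-- a padded family in other coordinates -/
theorem Pad.fam {V : Type} [NormedAddCommGroup V] [NormedSpace ℂ V] {u : V → MM p p 3}
    {τ : V → V} {a b : V} (h1 : AnalyticAt ℂ τ a) (e : τ a = b) (h2 : AnalyticAt ℂ u b)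
    (hτ : ∀ v, fderiv ℂ τ a v = 0 → v = 0)
    (hu : ∀ v, (fderiv ℂ u b v).1 ∈ BB p (u b).1 p (-(u b).1) 3 → v = 0) :
    ∃ u' : V → MM P P 3, AnalyticAt ℂ u' a ∧ (∀ z, (u' z).1 = S.pd (u (τ z)).1) ∧
      ∀ v, Trv P (u' a).1 (fderiv ℂ u' a v).1 → v = 0 := by
  obtain ⟨k1, k2⟩ := aff_der S.lin (⟨S.T, S.hT⟩ : MM P P 3) h1 e h2
  refine ⟨_, k1, fun z => rfl, ?_⟩
  rintro v ⟨h, hh, e1⟩
  rw [k2, S.lin_val, e] at e1
  exact hτ v (hu _ (S.triv hh e1))

end

/-- the models of an object on a given shape -/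
def Mo {ι : Type} [Fintype ι] [DecidableEq ι] (P : ι → ℤ) (E : HM W) : Set (Matrix ι ι S6) :=
  {d | ∃ h : IsMF W P d, Nonempty (ofRaw h ≅ E)}

theorem orb_Mo (hW : P287Z.O.V.Hg 6 W) {ι : Type} [Fintype ι] [DecidableEq ι] {P : ι → ℤ}
    {E : HM W} (hn : (Mo P E).Nonempty) (hd : ∀ F : HM W, Nonempty (F ≅ E) → ∀ k : ℤ,
      finrank ℂ (F ⟶ F⟦k⟧) = if k = 0 ∨ k = 2 then 1 else if k = 1 then 2 else 0) :
    Orb W P (Mo P E) := by
  refine ⟨hn, fun d h => h.1, ?_, fun d h k => (finrank_sh _ _ k).symm.trans (hd _ h.2 k)⟩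
  rintro d ⟨h, ⟨e⟩⟩ d'
  constructor
  · rintro ⟨h', ⟨e'⟩⟩
    obtain ⟨f, hf, hg⟩ : HE P d P d' := (iso_iff_he _ _).1 ⟨e ≪≫ e'.symm⟩
    obtain ⟨k, hk, hu⟩ := Dt.strict hW h h' ⟨hf, hg⟩
    have h1 : f + (d' * k + k * d) ∈ ZZ P d P d' 0 :=
      add_mem hf (bb_le_zz h h' 0 ⟨k, hk, rfl⟩)
    obtain ⟨g, hg, h2, h3⟩ := Dt.inv_zz h1 hu
    exact ⟨_, h1.1, g, hg.1, h3, h2, h1.2.symm⟩
  · rintro ⟨g, hg, g', hg', h1, h2, h3⟩
    have e1 : d' = g * d * g' := by rw [h3, Matrix.mul_assoc, h1, Matrix.mul_one]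
    have h' : IsMF W P d' := by
      refine ⟨e1 ▸ Cy.MM_mul (Cy.MM_mul hg h.deg (add_zero 3)) hg' (zero_add 3), ?_⟩
      calc d' * d' = d' * (d' * g) * g' := by
            rw [Matrix.mul_assoc, Matrix.mul_assoc, h1, Matrix.mul_one]
        _ = g * (d * d) * g' := by
            rw [← h3, ← Matrix.mul_assoc d', ← h3, Matrix.mul_assoc g]
        _ = W • 1 := by rw [h.sq, Matrix.mul_smul, Matrix.mul_one, Matrix.smul_mul, h1]
    obtain ⟨u⟩ := (iso_iff_he (ofRaw h) (ofRaw h')).2 (HE.of_conj hg hg' h1 h2 h3)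
    exact ⟨h', ⟨u.symm ≪≫ e⟩⟩

theorem zf_loc (M : Mdu W Q) : IsLocallyConstant fun x => Zf (M.R x) := by
  refine (IsLocallyConstant.iff_eventually_eq _).2 fun x => ?_
  filter_upwards [(chartAt (Fin 2 → ℂ) x).open_source.mem_nhds (mem_chart_source _ x)] with y hy
  obtain ⟨h, ⟨e⟩⟩ := M.mdl x _ ((chartAt (Fin 2 → ℂ) x).map_source hy)
  rw [(chartAt (Fin 2 → ℂ) x).left_inv hy] at e
  exact (K1a_Zf_iso e).symm

/-- **PAD**: a connected component of the moduli surface, on one shape -/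
theorem srf_of_mdu (hW : P287Z.O.V.Hg 6 W) (h0 : W ≠ 0) (M : Mdu W Q) (x0 : M.M)
    (hiso : ∀ E F : HM W, Q E → Nonempty (E ≅ F) → Q F)
    (hdim : ∀ E : HM W, Q E → ∀ k : ℤ,
      finrank ℂ (E ⟶ E⟦k⟧) = if k = 0 ∨ k = 2 then 1 else if k = 1 then 2 else 0)
    (hort : ∀ E F : HM W, Q E → Q F → IsEmpty (E ≅ F) → ∀ (k : ℤ) (f : E ⟶ F⟦k⟧), f = 0)
    (Q' : Pr) (hQ : ∀ E : HM W, Q E → Q' E.ι E.pz E.dz) : ∃ S : Srf W, S.All Q' := by
  have : LocallyConnectedSpace M.M := ChartedSpace.locallyConnectedSpace (Fin 2 → ℂ) M.M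
  let U : TopologicalSpace.Opens M.M := ⟨connectedComponent x0, isOpen_connectedComponent⟩
  have hU : IsCompact (connectedComponent x0) := isClosed_connectedComponent.isCompact
  have : CompactSpace U := isCompact_iff_compactSpace.1 hU
  have : ConnectedSpace U := isConnected_iff_connectedSpace.1 isConnected_connectedComponent
  obtain ⟨t, ht, hc⟩ := hU.elim_nhds_subcover (fun x => (chartAt (Fin 2 → ℂ) x).source)
    fun x _ => chart_source_mem_nhds _ x
  obtain ⟨n, P, hP⟩ := exists_shape hW h0 (fun j : t => M.R j) (M.R x0) fun j =>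
    (zf_loc M).apply_eq_of_isPreconnected isPreconnected_connectedComponent (ht j j.2)
      mem_connectedComponent
  have hq : ∀ (x : M.M) (F : HM W), Nonempty (F ≅ M.R x) → Q F := fun x F ⟨e⟩ =>
    hiso _ _ (M.q x) ⟨e.symm⟩
  have key : ∀ (j : t) (S : Pad W (M.R j).pz P), ∀ y ∈ (chartAt (Fin 2 → ℂ) j.1).source,
      S.pd (M.u j (chartAt (Fin 2 → ℂ) j.1 y)).1 ∈ Mo P (M.R y) := fun j S y hy => by
    obtain ⟨h, ⟨e⟩⟩ := M.mdl j _ ((chartAt (Fin 2 → ℂ) j.1).map_source hy)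
    rw [(chartAt (Fin 2 → ℂ) j.1).left_inv hy] at e
    obtain ⟨u⟩ := (iso_iff_he (ofRaw h) (ofRaw (S.isMF h))).2 (S.he _)
    exact ⟨S.isMF h, ⟨u.symm ≪≫ e⟩⟩
  have cov : ∀ x : U, ∃ j : t, x.1 ∈ (chartAt (Fin 2 → ℂ) j.1).source := fun x => by
    obtain ⟨j, hj, h⟩ := mem_iUnion₂.1 (hc x.2)
    exact ⟨⟨j, hj⟩, h⟩
  refine ⟨{ ι := (M.R x0).ι ⊕ (Fin n ⊕ Fin n), p := P, X := U, O := fun x => Mo P (M.R x.1)
            orb := fun x => ?_, ort := ?_, loc := fun x => ?_ }, ?_⟩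
  · obtain ⟨j, hj⟩ := cov x
    obtain ⟨S⟩ := hP j
    exact orb_Mo hW ⟨_, key j S _ hj⟩ fun F e => hdim F (hq _ F e)
  · rintro x x' hx d ⟨h, ⟨e⟩⟩ d' ⟨h', ⟨e'⟩⟩ k
    exact (hom_sh_zero_iff (ofRaw h) (ofRaw h') k).1 (hort _ _ (hq _ _ ⟨e⟩) (hq _ _ ⟨e'⟩)
      ⟨fun u => hx (Subtype.ext (M.inj _ _ ⟨e.symm ≪≫ u ≪≫ e'⟩))⟩ k)
  · obtain ⟨j, hj⟩ := cov x
    obtain ⟨S⟩ := hP j
    have hx := mem_chart_source (Fin 2 → ℂ) x.1
    have hz := (chartAt (Fin 2 → ℂ) j.1).map_source hj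
    obtain ⟨u, k1, k2, k3⟩ := S.fam (tr_an hx hj) (congrArg (chartAt (Fin 2 → ℂ) j.1)
      ((chartAt (Fin 2 → ℂ) x.1).left_inv hx)) (M.an j _ hz) (tr_inj hx hj) (M.ks j _ hz).inj
    refine ⟨u, k1, ?_, k3⟩
    have k4 := tr_ev hx hj
    filter_upwards [k4, (chartAt (Fin 2 → ℂ) x).open_target.mem_nhds
      (mem_chart_target _ x)] with z h1 h2
    have h3 : ((chartAt (Fin 2 → ℂ) x).symm z).1 = (chartAt (Fin 2 → ℂ) x.1).symm z :=
      OpenPartialHomeomorph.subtypeRestr_symm_apply _ ⟨x⟩ h2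
    change _ ∈ Mo P (M.R ((chartAt (Fin 2 → ℂ) x).symm z).1)
    rw [h3, k2]
    exact key j S _ h1.2
  · rintro x d ⟨h, e⟩
    exact hQ (ofRaw h) (hq _ _ e)

end Vale.Agent.P287T.Au
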