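import Vale.Agent.P287T.Au.Defs

/-!
# The transposed family
-/

set_option linter.unusedVariables false
set_option linter.unusedSectionVars false

open MvPolynomial Module Filter Topology Matrix

noncomputable section

namespace Vale.Agent.P287T.Au

open Vale.Agent.P287T.Cy Vale.Agent.P287T.Df Vale.Agent.P287Q Vale.Agent.P287Q.Cub

section

variable {ι κ : Type} {p : ι → ℤ} {q : κ → ℤ} {j : ℤ} {g : Matrix κ ι S6}

theorem MM_tr : gᵀ ∈ MM (-q) (-p) j ↔ g ∈ MM p q j := by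
  refine ⟨fun h i l => ?_, fun h i l => ?_⟩
  · have := h l i
    rwa [Pi.neg_apply, Pi.neg_apply, show j + -q i - -p l = j + p l - q i by ring] at this
  · have := h l i
    rwa [show j + p i - q l = j + (-q) l - (-p) i by simp only [Pi.neg_apply]; ring] at this

theorem MM_tr' {g : Matrix ι κ S6} : g ∈ MM (-q) (-p) j ↔ gᵀ ∈ MM p q j :=
  MM_tr (g := gᵀ)

variable [Fintype ι] [Fintype κ] {d : Matrix ι ι S6} {e : Matrix κ κ S6}

theorem ZZ_tr : gᵀ ∈ ZZ (-q) eᵀ (-p) dᵀ j ↔ g ∈ ZZ p d q e j := by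
  rw [mem_ZZ, mem_ZZ, MM_tr, ← transpose_mul, ← transpose_mul, transpose_inj, eq_comm]

theorem BB_tr : gᵀ ∈ BB (-q) eᵀ (-p) dᵀ j ↔ g ∈ BB p d q e j := by
  rw [mem_BB, mem_BB]
  refine ⟨fun ⟨h, h1, h2⟩ => ⟨hᵀ, MM_tr'.1 h1, ?_⟩, fun ⟨h, h1, h2⟩ => ⟨hᵀ, MM_tr.2 h1, ?_⟩⟩
  · rw [← transpose_transpose g, h2, transpose_add, transpose_mul, transpose_mul,
      transpose_transpose, transpose_transpose, add_comm]
  · rw [h2, transpose_add, transpose_mul, transpose_mul, add_comm]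

theorem HH_tr : Nonempty (HH p d q e j ≃ₗ[ℂ] HH (-q) eᵀ (-p) dᵀ j) :=
  P287Z.T.hq_equiv (transposeLinearEquiv κ ι ℂ S6).toLinearMap (fun _ hz => ZZ_tr.2 hz)
    (fun _ _ => BB_tr) fun z hz => ⟨zᵀ, ZZ_tr.1 hz, by
      change z - z ∈ _
      rw [sub_self]
      exact zero_mem _⟩

variable [DecidableEq ι] {W : S6}

theorem isMF_tr (h : IsMF W p d) : IsMF W (-p) dᵀ :=
  ⟨MM_tr.2 h.deg, by rw [← transpose_mul, h.sq, transpose_smul, transpose_one]⟩

theorem Orb.tr {O : Set (Matrix ι ι S6)} (h : Orb W p O) : Orb W (-p) {d | dᵀ ∈ O} where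
  ne := h.ne.elim fun d hd => ⟨dᵀ, hd⟩
  mf d hd := isMF_tr (h.mf _ hd)
  conj d hd d' := by
    refine (h.conj _ hd d'ᵀ).trans ⟨?_, ?_⟩
    · rintro ⟨g, hg, g', hg', h1, h2, h3⟩
      refine ⟨g'ᵀ, MM_tr.2 hg', gᵀ, MM_tr.2 hg, by rw [← transpose_mul, h1, transpose_one],
        by rw [← transpose_mul, h2, transpose_one], ?_⟩
      have : dᵀ * g' = g' * d'ᵀ := by
        rw [← Matrix.one_mul (dᵀ * g'), ← h2, Matrix.mul_assoc, ← Matrix.mul_assoc g, h3,
          Matrix.mul_assoc, h1, Matrix.mul_one]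
      simpa only [transpose_mul, transpose_transpose] using congrArg transpose this
    · rintro ⟨g, hg, g', hg', h1, h2, h3⟩
      refine ⟨g'ᵀ, MM_tr'.1 hg', gᵀ, MM_tr'.1 hg, by rw [← transpose_mul, h1, transpose_one],
        by rw [← transpose_mul, h2, transpose_one], ?_⟩
      have : d * g' = g' * d' := by
        rw [← Matrix.one_mul (d * g'), ← h2, Matrix.mul_assoc, ← Matrix.mul_assoc g, h3,
          Matrix.mul_assoc, h1, Matrix.mul_one]
      simpa only [transpose_mul] using congrArg transpose this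
  dim d hd k := by
    obtain ⟨a⟩ := HH_tr (p := p) (q := p) (d := dᵀ) (e := dᵀ) (j := 3 * k)
    exact a.finrank_eq.symm.trans (h.dim _ hd k)

theorem Ort.tr {O O' : Set (Matrix ι ι S6)} (h : Ort p O O') :
    Ort (-p) {d | dᵀ ∈ O'} {d | dᵀ ∈ O} := fun d hd d' hd' k g hg =>
  BB_tr (g := gᵀ).2 (h _ hd' _ hd k (ZZ_tr (g := gᵀ).1 hg))

theorem Trv.tr {ξ : Matrix ι ι S6} (h : Trv (-p) dᵀ ξᵀ) : Trv p d ξ := by
  obtain ⟨h, h1, h2⟩ := h
  refine ⟨-hᵀ, neg_mem (MM_tr'.1 h1), ?_⟩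
  rw [← transpose_transpose ξ, h2, transpose_sub, transpose_mul, transpose_mul,
    transpose_transpose, Matrix.neg_mul, Matrix.mul_neg]
  abel

variable (p) in
/-- transposition as a continuous linear map -/
def trL : MM p p 3 →L[ℂ] MM (-p) (-p) 3 :=
  LinearMap.toContinuousLinearMap
    { toFun := fun g => ⟨g.1ᵀ, MM_tr.2 g.2⟩
      map_add' := fun _ _ => rfl
      map_smul' := fun _ _ => rfl }

end

theorem not_line {ν : ℕ} {z z' : Fin ν → ℂ} (hz : z ≠ 0) (h : ∀ c : ℂ, z' ≠ c • z)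
    (c : ℂ) : z ≠ c • z' := fun e => by
  have hc : c ≠ 0 := fun h0 => hz (by rw [e, h0, zero_smul])
  exact h c⁻¹ (by rw [e, smul_smul, inv_mul_cancel₀ hc, one_smul])

theorem Cf.ne_zero {W : S6} (C : Cf W) {z : Fin C.ν → ℂ} (hz : z ∈ C.Z) : z ≠ 0 := by
  obtain ⟨i, -, hi⟩ := C.pv.sub hz ()
  exact fun e => hi (congrFun e i)

/-- the transposed family -/
def Cf.tr {W : S6} (C : Cf W) : Cf W where
  ι := C.ι
  p := -C.p
  ν := C.ν
  Z := C.Z
  pv := C.pv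
  cn := C.cn
  O z := {d | dᵀ ∈ C.O z}
  smul z hz c hc := by rw [C.smul z hz c hc]
  orb z hz := (C.orb z hz).tr
  ort z hz z' hz' h := (C.ort z' hz' z hz (not_line (C.ne_zero hz) h)).tr
  loc z hz := by
    obtain ⟨u, h1, h2, h3⟩ := C.loc z hz
    refine ⟨trL C.p ∘ u, ((trL C.p).analyticAt _).comp h1, h2, fun v hv h => h3 v hv ?_⟩
    rw [((trL C.p).hasFDerivAt.comp z h1.differentiableAt.hasFDerivAt).fderiv] at h
    exact Trv.tr h

theorem Cf.tr_I {W : S6} (C : Cf W) : C.tr.I = C.I := rfl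

end Vale.Agent.P287T.Au
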