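import Vale.Agent.P287T.Au.St
import Mathlib.LinearAlgebra.Matrix.Charpoly.Eigs
import Mathlib.LinearAlgebra.Matrix.Charpoly.LinearMap
import Mathlib.FieldTheory.IsAlgClosed.Spectrum
import Mathlib.FieldTheory.IsAlgClosed.AlgebraicClosure
import Mathlib.RingTheory.IntegralClosure.Algebra.Basic

/-!
# The trace of an endomorphism which preserves a lattice over a normal ring
-/

open Polynomial

noncomputable section

namespace Vale.Agent.P287T.Au

/-- the trace of an integral matrix over a field is integral -/
theorem tr_int {A K : Type} [CommRing A] [Field K] [Algebra A K] {n : Type} [Fintype n]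
    [DecidableEq n] (B : Matrix n n K) (p : A[X]) (hp : p.Monic)
    (h : aeval B (p.map (algebraMap A K)) = 0) : IsIntegral A B.trace := by
  rcases isEmpty_or_nonempty n with hn | hn
  · simpa using isIntegral_zero
  let L := AlgebraicClosure K
  let f : Matrix n n K →+* Matrix n n L := (algebraMap K L).mapMatrix
  have h1 : aeval (f B) (p.map (algebraMap A L)) = 0 := by
    have h2 := congrArg f h
    rw [map_zero, aeval_def, eval₂_map, hom_eval₂] at h2
    rw [aeval_def, eval₂_map, ← h2]
    congr 1
    ext a i j
    by_cases hij : i = j <;>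
      simp [f, Matrix.algebraMap_matrix_apply, hij, ← IsScalarTower.algebraMap_apply]
  have h3 : IsIntegral A (f B).trace := by
    rw [Matrix.trace_eq_sum_roots_charpoly]
    refine IsIntegral.multiset_sum fun μ hμ => ⟨p, hp, ?_⟩
    have h4 := spectrum.subset_polynomial_aeval (f B) (p.map (algebraMap A L))
      ⟨μ, Matrix.mem_spectrum_of_isRoot_charpoly (isRoot_of_mem_roots hμ), rfl⟩
    rw [h1, spectrum.zero_eq, Set.mem_singleton_iff] at h4
    simpa [eval_map] using h4
  have h5 : (f B).trace = algebraMap K L B.trace := by
    simp [f, Matrix.trace]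
  rw [h5] at h3
  exact (isIntegral_algHom_iff (IsScalarTower.toAlgHom A K L) (algebraMap K L).injective).1 h3

theorem stTr : StTr := by
  intro K _ A _ _ M _ _ _ G hG hs σ hσ
  have : Module.Finite A G := Module.Finite.iff_fg.2 hG
  let τ : G →ₗ[A] G := (σ.restrictScalars A).restrict hσ
  obtain ⟨p, hp, h0⟩ := LinearMap.exists_monic_and_aeval_eq_zero A τ
  have hpow : ∀ (k : ℕ) (x : G), (((τ ^ k) x : G) : M) = (σ ^ k) x := by
    intro k
    induction k with
    | zero => intro x; rfl
    | succ k ih => intro x; rw [pow_succ, pow_succ]; exact ih (τ x)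
  have key : ∀ (q : A[X]) (x : G),
      ((aeval τ q x : G) : M) = aeval σ (q.map (algebraMap A K)) (x : M) := by
    intro q x
    induction q using Polynomial.induction_on' with
    | add q r hq hr => simp [hq, hr]
    | monomial k a =>
      simp only [aeval_monomial, map_monomial, Module.End.mul_apply, Module.algebraMap_end_apply,
        Submodule.coe_smul, hpow]
      rfl
  have h1 : aeval σ (p.map (algebraMap A K)) = 0 := by
    refine LinearMap.ext_on hs fun x hx => ?_
    rw [← key p ⟨x, hx⟩, h0]
    rfl
  let b := Module.finBasis K M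
  have h2 : aeval (LinearMap.toMatrixAlgEquiv b σ) (p.map (algebraMap A K)) = 0 := by
    rw [aeval_algHom_apply (LinearMap.toMatrixAlgEquiv b), h1, map_zero]
  have h3 := tr_int _ p hp h2
  rw [LinearMap.trace_eq_matrix_trace K b]
  obtain ⟨y, hy⟩ := IsIntegrallyClosed.isIntegral_iff.1 h3
  exact (show (y : K) = _ from hy) ▸ y.2

end Vale.Agent.P287T.Au
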